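import Mathlib

/-!
P248: elementary tools. Cone vectors of a body cut by the coordinate orthants give a box inside the
polar, and adding a box to the polar bounds its volume from below by its coordinate projections.
-/

open MeasureTheory Set
open scoped Matrix

namespace Vale.Agent.P248

/-- The sign of a Boolean. -/
def sg (b : Bool) : ℝ := if b then 1 else -1

/-- Change of signs. -/
def sgn {n : ℕ} (s : Fin n → Bool) (x : Fin n → ℝ) : Fin n → ℝ := fun i => sg (s i) * x i

/-- The closed orthant of a sign pattern. -/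
def orth {n : ℕ} (s : Fin n → Bool) : Set (Fin n → ℝ) := {x | ∀ i, 0 ≤ sg (s i) * x i}

/-- The polar. -/
def pol {n : ℕ} (K : Set (Fin n → ℝ)) : Set (Fin n → ℝ) := {y | ∀ x ∈ K, x ⬝ᵥ y ≤ 1}

/-- The coordinate section, in the other coordinates. -/
def sec {n : ℕ} (i : Fin (n + 1)) (K : Set (Fin (n + 1) → ℝ)) : Set (Fin n → ℝ) :=
  {y | i.insertNth 0 y ∈ K}

/-- The volume product. -/
noncomputable def vp {n : ℕ} (K : Set (Fin n → ℝ)) : ℝ := volume.real K * volume.real (pol K)

/-- Equal cut by the orthants. -/
def Equi {n : ℕ} (K : Set (Fin n → ℝ)) : Prop :=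
  ∀ s, volume.real (K ∩ orth s) = volume.real K / 2 ^ n

/-- Compact, convex, with the origin inside. -/
structure Body {n : ℕ} (K : Set (Fin n → ℝ)) : Prop where
  cpt : IsCompact K
  cvx : Convex ℝ K
  zero : (0 : Fin n → ℝ) ∈ interior K

variable {n : ℕ}

lemma sg_mul_self (b : Bool) : sg b * sg b = 1 := by cases b <;> simp [sg]

lemma sg_eq_or (b : Bool) : sg b = 1 ∨ sg b = -1 := by cases b <;> simp [sg]

lemma exists_mem_orth (x : Fin n → ℝ) : ∃ s, x ∈ orth s :=
  ⟨fun i => decide (0 ≤ x i), fun i => by
    by_cases h : 0 ≤ x i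
    · simp [sg, h]
    · simp [sg, h]; linarith⟩

lemma closed_orth (s : Fin n → Bool) : IsClosed (orth s) := by
  simp only [orth, Set.ofPred_forall]
  exact isClosed_iInter fun i => isClosed_le continuous_const (by fun_prop)

lemma null_ker (f : (Fin n → ℝ) →ₗ[ℝ] ℝ) (hf : f ≠ 0) : volume {x | f x = 0} = 0 := by
  have h : LinearMap.ker f ≠ ⊤ := by
    intro h; exact hf (LinearMap.ker_eq_top.mp h)
  exact Measure.addHaar_submodule volume (LinearMap.ker f) h

lemma null_coord (i : Fin n) : volume {x : Fin n → ℝ | x i = 0} = 0 := by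
  refine null_ker (LinearMap.proj i) fun h => ?_
  simpa using LinearMap.congr_fun h (fun _ => 1)

lemma sum_orth {K : Set (Fin n → ℝ)} (hK : IsCompact K) :
    ∑ s, volume.real (K ∩ orth s) = volume.real K := by
  have hm : ∀ s, NullMeasurableSet (K ∩ orth s) volume := fun s =>
    (hK.measurableSet.inter (closed_orth s).measurableSet).nullMeasurableSet
  have hd : Pairwise fun s t => AEDisjoint volume (K ∩ orth s) (K ∩ orth t) := by
    intro s t hst
    obtain ⟨i, hi⟩ := Function.ne_iff.mp hst
    refine measure_mono_null ?_ (null_coord i)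
    rintro x ⟨⟨_, hs⟩, _, ht⟩
    have h1 := hs i; have h2 := ht i
    revert hi h1 h2
    cases s i <;> cases t i <;> simp [sg] <;> intros <;> linarith
  have hu : ⋃ s, K ∩ orth s = K := by
    rw [← Set.inter_iUnion, Set.inter_eq_left]
    intro x _; exact Set.mem_iUnion.mpr (exists_mem_orth x)
  have h := measure_iUnion₀ (μ := volume) hd hm
  rw [hu, tsum_fintype] at h
  rw [measureReal_def, h, ENNReal.toReal_sum]
  · rfl
  · intro s _; exact ne_top_of_le_ne_top hK.measure_ne_top (measure_mono inter_subset_left)

lemma equi_of_const {K : Set (Fin n → ℝ)} (hK : IsCompact K)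
    (h : ∀ s t, volume.real (K ∩ orth s) = volume.real (K ∩ orth t)) : Equi K := by
  intro s
  have := sum_orth hK
  rw [Finset.sum_congr rfl (fun t _ => h t s), Finset.sum_const] at this
  rw [eq_div_iff (by positivity)]
  simp at this
  linarith

lemma mp_sgn (s : Fin n → Bool) : MeasurePreserving (sgn s) volume volume := by
  refine volume_preserving_pi (f := fun i x => sg (s i) * x) fun i => ?_
  rcases sg_eq_or (s i) with h | h
  · simp only [h, one_mul]; exact MeasurePreserving.id _
  · simp only [h, neg_one_mul]; exact Measure.measurePreserving_neg _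

lemma vol_orth_invariant {K : Set (Fin n → ℝ)} (hK : IsCompact K) (s t : Fin n → Bool)
    (h : ∀ x ∈ K, sgn (fun i => s i == t i) x ∈ K) :
    volume.real (K ∩ orth s) = volume.real (K ∩ orth t) := by
  set e := fun i => s i == t i with he
  have hh : sgn e ⁻¹' (K ∩ orth t) = K ∩ orth s := by
    have hinv : ∀ x, sgn e (sgn e x) = x := fun x => funext fun i => by
      simp [sgn, ← mul_assoc, sg_mul_self]
    have hsign : ∀ i (u : ℝ), sg (t i) * (sg (e i) * u) = sg (s i) * u := fun i u => by
      simp only [he]; cases s i <;> cases t i <;> simp [sg]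
    ext x
    constructor
    · rintro ⟨h1, h2⟩
      refine ⟨hinv x ▸ h _ h1, fun i => ?_⟩
      have := h2 i
      simp only [sgn] at this
      rwa [hsign] at this
    · rintro ⟨h1, h2⟩
      refine ⟨h _ h1, fun i => ?_⟩
      show 0 ≤ sg (t i) * (sg (e i) * x i)
      rw [hsign]; exact h2 i
  rw [measureReal_def, measureReal_def, ← hh, (mp_sgn e).measure_preimage
    (hK.measurableSet.inter (closed_orth t).measurableSet).nullMeasurableSet]

/-- Coordinates split at `i`. -/
lemma vol_slice (i : Fin (n + 1)) {S : Set (Fin (n + 1) → ℝ)} (hS : MeasurableSet S) :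
    volume S = ∫⁻ u, volume {q | i.insertNth u q ∈ S} := by
  have h := (volume_preserving_piFinSuccAbove (fun _ : Fin (n + 1) => ℝ) i).symm
  rw [← h.measure_preimage hS.nullMeasurableSet, Measure.volume_eq_prod,
    Measure.prod_apply (h.measurable hS)]
  rfl

lemma vol_slice' (i : Fin (n + 1)) {S : Set (Fin (n + 1) → ℝ)} (hS : MeasurableSet S) :
    volume S = ∫⁻ q, volume {u | i.insertNth u q ∈ S} := by
  have h := (volume_preserving_piFinSuccAbove (fun _ : Fin (n + 1) => ℝ) i).symm
  rw [← h.measure_preimage hS.nullMeasurableSet, Measure.volume_eq_prod,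
    Measure.prod_apply_symm (h.measurable hS)]
  rfl

end Vale.Agent.P248
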