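import Vale.Agent.P248.Step

/-!
P248: the volume product of a body symmetric in some of the coordinate hyperplanes, about an
arbitrary interior point of it.

Cones over the sections in the symmetric coordinates give a box inside the polar. Without any
symmetry two cones over one section give a segment inside it. Adding the box or the segment to the
polar bounds its volume below by those of the polars of the sections.
-/

open MeasureTheory Set Module
open scoped Matrix Pointwise

namespace Vale.Agent.P248

variable {n : ℕ}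

/-- The reflection in one coordinate hyperplane. -/
def rf (i : Fin n) (x : Fin n → ℝ) : Fin n → ℝ := Function.update x i (-x i)

/-- Symmetric in the coordinate hyperplanes of `J`. -/
def Sy (K : Set (Fin n → ℝ)) (J : Finset (Fin n)) : Prop := ∀ x ∈ K, ∀ i ∈ J, rf i x ∈ K

/-- The part with prescribed signs in the coordinates of `J`. -/
def hs (J : Finset (Fin n)) (s : Fin n → Bool) : Set (Fin n → ℝ) :=
  {x | ∀ i ∈ J, 0 ≤ sg (s i) * x i}

lemma closed_hs (J : Finset (Fin n)) (s : Fin n → Bool) : IsClosed (hs J s) := by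
  simp only [hs, Set.ofPred_forall]
  exact isClosed_iInter fun i => isClosed_iInter fun _ =>
    isClosed_le continuous_const (continuous_const.mul (continuous_apply i))

lemma rf_rf (i : Fin n) (x : Fin n → ℝ) : rf i (rf i x) = x := by
  funext j
  by_cases h : j = i
  · subst h; simp [rf]
  · simp [rf, Function.update_of_ne h]

lemma rf_eq_sgn (i : Fin n) : rf i = sgn (fun k => !decide (k = i)) := by
  funext x j
  by_cases h : j = i
  · subst h; simp [rf, sgn, sg]
  · simp [rf, sgn, sg, h]

lemma mp_rf (i : Fin n) : MeasurePreserving (rf i) volume volume := rf_eq_sgn i ▸ mp_sgn _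

/-- Cones over the sections inside one part. -/
lemma cone_hs_le {K : Set (Fin (n + 1) → ℝ)} (hK : IsCompact K) (hc : Convex ℝ K)
    (J : Finset (Fin (n + 1))) (s : Fin (n + 1) → Bool) {x : Fin (n + 1) → ℝ}
    (hx : x ∈ K ∩ hs J s) :
    ∑ i ∈ J, |x i| / (n + 1) *
      volume.real {q | q ∈ sec i K ∧ ∀ k, i.succAbove k ∈ J → 0 ≤ sg (s (i.succAbove k)) * q k} ≤
      volume.real (K ∩ hs J s) := by
  classical
  let Q := fun i : Fin (n + 1) =>
    {q | q ∈ sec i K ∧ ∀ k, i.succAbove k ∈ J → 0 ≤ sg (s (i.succAbove k)) * q k}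
  have hQ : ∀ i, MeasurableSet (Q i) := fun i => by
    refine IsClosed.measurableSet ((hK.isClosed.preimage (continuous_insertNth i 0)).inter
      (?_ : IsClosed {q : Fin n → ℝ | ∀ k, i.succAbove k ∈ J → 0 ≤ sg (s (i.succAbove k)) * q k}))
    simp only [Set.ofPred_forall]
    exact isClosed_iInter fun k => isClosed_iInter fun _ =>
      isClosed_le continuous_const (continuous_const.mul (continuous_apply k))
  set S := J.filter fun i => x i ≠ 0
  have hsub : ∀ i ∈ S, cone i x (Q i) ⊆ K ∩ hs J s := by
    intro i hi z hz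
    obtain ⟨t, ht, q, hq, -, rfl⟩ := mem_cone (Finset.mem_filter.mp hi).2 hz
    refine ⟨hc hq.1 hx.1 (by linarith [ht.2]) ht.1 (by ring), fun j hj => ?_⟩
    have := mul_nonneg ht.1 (hx.2 j hj)
    rcases i.eq_self_or_eq_succAbove j with rfl | ⟨k, rfl⟩
    · simp; linarith
    · have := mul_nonneg (sub_nonneg.mpr ht.2.le) (hq.2 k hj)
      simp only [Pi.add_apply, Pi.smul_apply, Fin.insertNth_apply_succAbove, smul_eq_mul]
      linarith
  have hd : (S : Set (Fin (n + 1))).Pairwise
      fun i j => AEDisjoint volume (cone i x (Q i)) (cone j x (Q j)) := by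
    intro i hi j hj hij
    obtain ⟨hiJ, hxi⟩ := Finset.mem_filter.mp hi
    obtain ⟨hjJ, hxj⟩ := Finset.mem_filter.mp hj
    refine measure_mono_null ?_ (null_ker (x j • LinearMap.proj i - x i • LinearMap.proj j) ?_)
    · rintro z ⟨hz1, hz2⟩
      obtain ⟨t, ht, q, hq, htz, hzq⟩ := mem_cone hxi hz1
      obtain ⟨t', ht', q', hq', htz', hzq'⟩ := mem_cone hxj hz2
      have key : ∀ (a b : Fin (n + 1)) (t t' : ℝ) (q : Fin n → ℝ), a ≠ b → b ∈ J →
          (∀ k, a.succAbove k ∈ J → 0 ≤ sg (s (a.succAbove k)) * q k) → 0 ≤ 1 - t → x b ≠ 0 →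
          z = (1 - t) • a.insertNth (α := fun _ => ℝ) 0 q + t • x → t' = z b / x b → t ≤ t' := by
        intro a b t t' q hab hbJ hq h1 hb hzq hb'
        obtain ⟨k, rfl⟩ := Fin.exists_succAbove_eq hab.symm
        have h2 := mul_nonneg h1 (hq k hbJ)
        have h3 : 0 < sg (s (a.succAbove k)) * x (a.succAbove k) :=
          lt_of_le_of_ne (hx.2 _ hbJ) (Ne.symm (mul_ne_zero (by
            rcases sg_eq_or (s (a.succAbove k)) with h | h <;> simp [h]) hb))
        have h4 : z (a.succAbove k) = t' * x (a.succAbove k) := by rw [hb']; field_simp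
        rw [congrFun hzq] at h4
        simp at h4
        nlinarith [h4, congrArg (fun u => sg (s (a.succAbove k)) * u) h4]
      have e1 := key i j t t' q hij hjJ hq.2 (by linarith [ht.2]) hxj hzq htz'
      have e2 := key j i t' t q' hij.symm hiJ hq'.2 (by linarith [ht'.2]) hxi hzq' htz
      have e : z i / x i = z j / x j := by rw [← htz, ← htz']; linarith
      show (x j • LinearMap.proj i - x i • LinearMap.proj j : _ →ₗ[ℝ] ℝ) z = 0
      simp
      field_simp at e
      linarith
    · intro h
      have := LinearMap.congr_fun h (Pi.single i 1)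
      simp [Pi.single_eq_of_ne hij.symm] at this
      exact hxj this
  have hle := measure_mono (μ := volume) (iUnion₂_subset hsub)
  rw [measure_biUnion_finset₀ hd fun i _ => (measurableSet_cone i x (hQ i)).nullMeasurableSet] at hle
  have hfin : volume (K ∩ hs J s) ≠ ⊤ :=
    ne_top_of_le_ne_top hK.measure_ne_top (measure_mono inter_subset_left)
  have hr := ENNReal.toReal_mono hfin hle
  rw [ENNReal.toReal_sum fun i hi => ne_top_of_le_ne_top hfin (measure_mono (hsub i hi))] at hr
  refine le_of_eq_of_le ?_ hr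
  rw [Finset.sum_filter]
  refine Finset.sum_congr rfl fun i _ => ?_
  by_cases hi : x i = 0
  · simp [hi]
  · rw [if_pos hi, vol_cone i x hi (hQ i), ENNReal.toReal_mul,
      ENNReal.toReal_ofReal (by positivity)]
    rfl

/-- Two complementary halves. -/
lemma vol_halves {K : Set (Fin n → ℝ)} (hK : IsCompact K) (i : Fin n) :
    volume.real K = volume.real (K ∩ {x | 0 ≤ x i}) + volume.real (K ∩ {x | x i ≤ 0}) := by
  have hm : MeasurableSet {x : Fin n → ℝ | x i ≤ 0} :=
    (isClosed_le (continuous_apply i) continuous_const).measurableSet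
  have hfin : ∀ S : Set (Fin n → ℝ), volume (K ∩ S) ≠ ⊤ := fun S =>
    ne_top_of_le_ne_top hK.measure_ne_top (measure_mono inter_subset_left)
  rw [measureReal_def, measureReal_def, measureReal_def, ← ENNReal.toReal_add (hfin _) (hfin _),
    ← measure_union₀ (hK.measurableSet.inter hm).nullMeasurableSet
      (measure_mono_null (fun x hx => le_antisymm hx.2.2 hx.1.2) (null_coord i)),
    ← Set.inter_union_distrib_left]
  congr 2
  exact (inter_eq_left.mpr fun x _ => le_total 0 (x i)).symm

/-- A symmetric set is halved by each of its hyperplanes of symmetry. -/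
lemma vol_hs {K : Set (Fin n → ℝ)} (hK : IsCompact K) : ∀ {J : Finset (Fin n)}, Sy K J →
    volume.real (K ∩ hs J fun _ => true) = volume.real K / 2 ^ J.card := by
  classical
  intro J
  induction J using Finset.induction with
  | empty => intro _; simp [hs]
  | @insert i J hi ih =>
    intro hS
    have hS' : Sy K J := fun x hx k hk => hS x hx k (Finset.mem_insert_of_mem hk)
    set A := K ∩ hs J fun _ => true
    have hA : IsCompact A := hK.inter_right (closed_hs _ _)
    have hflip : ∀ x, x ∈ A → rf i x ∈ A := fun x hx => by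
      refine ⟨hS x hx.1 i (Finset.mem_insert_self _ _), fun k hk => ?_⟩
      have hne : k ≠ i := fun e => hi (e ▸ hk)
      simpa [rf, Function.update_of_ne hne] using hx.2 k hk
    have heq : volume.real (A ∩ {x | x i ≤ 0}) = volume.real (A ∩ {x | 0 ≤ x i}) := by
      have hpre : rf i ⁻¹' (A ∩ {x | 0 ≤ x i}) = A ∩ {x | x i ≤ 0} := by
        ext x
        constructor
        · rintro ⟨h1, h2⟩
          refine ⟨rf_rf i x ▸ hflip _ h1, ?_⟩
          simpa [rf] using h2
        · rintro ⟨h1, h2⟩
          refine ⟨hflip _ h1, ?_⟩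
          simpa [rf] using h2
      rw [measureReal_def, measureReal_def, ← hpre, (mp_rf i).measure_preimage
        (hA.measurableSet.inter
          (isClosed_le continuous_const (continuous_apply i)).measurableSet).nullMeasurableSet]
    have hsplit := vol_halves hA i
    rw [heq, ih hS'] at hsplit
    have hset : K ∩ hs (insert i J) (fun _ => true) = A ∩ {x | 0 ≤ x i} := by
      ext x
      simp [A, hs, sg]
      tauto
    rw [hset, Finset.card_insert_of_notMem hi, pow_succ]
    rw [show volume.real K / (2 ^ J.card * 2) = volume.real K / 2 ^ J.card / 2 by ring]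
    linarith

/-- The coordinates of a section. -/
noncomputable def secJ (i : Fin (n + 1)) (J : Finset (Fin (n + 1))) : Finset (Fin n) :=
  J.preimage i.succAbove Fin.succAbove_right_injective.injOn

lemma card_secJ {i : Fin (n + 1)} {J : Finset (Fin (n + 1))} (hi : i ∈ J) :
    (secJ i J).card + 1 = J.card := by
  classical
  rw [secJ, ← Finset.card_image_of_injective _ Fin.succAbove_right_injective,
    Finset.image_preimage]
  have : J.filter (fun x => x ∈ range i.succAbove) = J.erase i := by
    ext x
    simp [Fin.range_succAbove]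
    tauto
  rw [this, Finset.card_erase_add_one hi]

lemma Sy.sec {K : Set (Fin (n + 1) → ℝ)} {J : Finset (Fin (n + 1))} (h : Sy K J)
    (i : Fin (n + 1)) : Sy (sec i K) (secJ i J) := by
  intro q hq k hk
  have hk' : i.succAbove k ∈ J := by simpa [secJ] using hk
  have := h _ hq _ hk'
  show i.insertNth 0 _ ∈ K
  convert this using 1
  funext j
  rcases i.eq_self_or_eq_succAbove j with rfl | ⟨l, rfl⟩
  · simp [rf]
  · by_cases hl : l = k
    · subst hl; simp [rf]
    · simp [rf, Function.update_of_ne hl,
        Function.update_of_ne (fun e => hl (Fin.succAbove_right_injective e))]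

/-- The step in the symmetric coordinates. -/
theorem step_sym {K : Set (Fin (n + 1) → ℝ)} (hK : Body K) {J : Finset (Fin (n + 1))}
    (hS : Sy K J) : 4 * ∑ i ∈ J, vp (sec i K) ≤ ((n : ℝ) + 1) ^ 2 * vp K := by
  classical
  set V := volume.real K
  have hV : 0 < V := hK.vol_pos
  set y : Fin (n + 1) → ℝ := fun i =>
    if i ∈ J then 2 * volume.real (sec i K) / ((n + 1) * V) else 0
  have hy : ∀ i, 0 ≤ y i := fun i => by
    simp only [y]; split_ifs <;> positivity
  set s : Fin (n + 1) → Bool := fun _ => true
  have hQ : ∀ i ∈ J, volume.real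
      {q | q ∈ sec i K ∧ ∀ k, i.succAbove k ∈ J → 0 ≤ sg (s (i.succAbove k)) * q k} =
      volume.real (sec i K) / 2 ^ (secJ i J).card := by
    intro i _
    rw [← vol_hs (hK.sec i).cpt (hS.sec i)]
    congr 1
    ext q
    simp [hs, secJ, s]
  have habs : ∀ x ∈ K, ∃ x' ∈ K ∩ hs J s, ∀ i ∈ J, |x' i| = |x i| := by
    suffices ∀ T ⊆ J, ∀ x ∈ K, ∃ x' ∈ K ∩ hs T s, ∀ i, |x' i| = |x i| by
      intro x hx
      obtain ⟨x', h1, h2⟩ := this J subset_rfl x hx
      exact ⟨x', h1, fun i _ => h2 i⟩
    intro T
    induction T using Finset.induction with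
    | empty => intro _ x hx; exact ⟨x, ⟨hx, by simp [hs]⟩, fun _ => rfl⟩
    | @insert a T ha ih =>
      intro hT x hx
      obtain ⟨x', ⟨h1, h2⟩, h3⟩ := ih (fun k hk => hT (Finset.mem_insert_of_mem hk)) x hx
      by_cases hpos : 0 ≤ x' a
      · refine ⟨x', ⟨h1, fun k hk => ?_⟩, h3⟩
        rcases Finset.mem_insert.mp hk with rfl | hk
        · simpa [s, sg] using hpos
        · exact h2 k hk
      · refine ⟨rf a x', ⟨hS _ h1 a (hT (Finset.mem_insert_self _ _)), fun k hk => ?_⟩, fun i => ?_⟩
        · rcases Finset.mem_insert.mp hk with rfl | hk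
          · simp [s, sg, rf]; linarith
          · have hne : k ≠ a := fun e => ha (e ▸ hk)
            simpa [rf, Function.update_of_ne hne] using h2 k hk
        · by_cases hi : i = a
          · subst hi; simp [rf, h3]
          · simp [rf, Function.update_of_ne hi, h3]
  have hbox : ∀ b, (∀ i, |b i| ≤ y i) → b ∈ pol K := by
    intro b hb x hx
    obtain ⟨x', hx', hxa⟩ := habs x hx
    have h1 := cone_hs_le hK.cpt hK.cvx J s hx'
    rw [vol_hs hK.cpt hS, Finset.sum_congr rfl fun i hi => by rw [hQ i hi]] at h1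
    calc x ⬝ᵥ b ≤ ∑ i, |x i| * y i := Finset.sum_le_sum fun i _ =>
          (le_abs_self _).trans (by rw [abs_mul]; exact mul_le_mul_of_nonneg_left (hb i) (abs_nonneg _))
      _ = ∑ i ∈ J, |x i| * y i := (Finset.sum_subset (Finset.subset_univ J)
          fun i _ hi => by simp [y, hi]).symm
      _ = (2 ^ J.card / V) * ∑ i ∈ J, |x' i| / (n + 1) *
            (volume.real (sec i K) / 2 ^ (secJ i J).card) := by
          rw [Finset.mul_sum]
          refine Finset.sum_congr rfl fun i hi => ?_
          rw [hxa i hi, ← card_secJ hi, pow_succ]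
          simp only [y, if_pos hi]
          field_simp
      _ ≤ (2 ^ J.card / V) * (V / 2 ^ J.card) := mul_le_mul_of_nonneg_left h1 (by positivity)
      _ = 1 := by field_simp
  have h2 := box_le hK.pol_cpt (pol_cvx K) y hy hbox
  have h3 : ∑ i, 2 * y i * volume.real (pol (sec i K)) ≤ (n + 1) * volume.real (pol K) :=
    le_trans (Finset.sum_le_sum fun i _ => mul_le_mul_of_nonneg_left
      (measureReal_mono (pol_sec_subset hK i) (hK.pol_cpt.image
        (f := fun z => i.removeNth z) (by unfold Fin.removeNth; fun_prop)).measure_ne_top)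
      (by have := hy i; positivity)) h2
  have h4 : ∑ i, 2 * y i * volume.real (pol (sec i K)) =
      4 / (((n : ℝ) + 1) * V) * ∑ i ∈ J, vp (sec i K) := by
    rw [Finset.mul_sum, ← Finset.sum_subset (Finset.subset_univ J) fun i _ hi => by simp [y, hi]]
    refine Finset.sum_congr rfl fun i hi => ?_
    simp only [y, vp, if_pos hi]; field_simp; ring
  rw [h4, div_mul_eq_mul_div, div_le_iff₀ (by positivity)] at h3
  simp only [vp] at h3 ⊢
  nlinarith

/-- A convex set containing a segment is large. -/
lemma segment_le (i : Fin (n + 1)) {L : Set (Fin (n + 1) → ℝ)} (hL : IsCompact L)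
    (hc : Convex ℝ L) {a b : ℝ} (ha : 0 ≤ a) (hb : 0 ≤ b) (hpa : Pi.single i (-a) ∈ L)
    (hpb : Pi.single i b ∈ L) :
    (a + b) * volume.real (i.removeNth '' L) ≤ (n + 1) * volume.real L := by
  set W := (a + b) * volume.real (i.removeNth '' L)
  have main : ∀ t : ℝ, 0 < t → volume.real L + t * W ≤ (1 + t) ^ (n + 1) * volume.real L := by
    intro t ht
    set v : Fin (n + 1) → ℝ := Pi.single i (-(t * (b - a) / 2))
    have hT : IsCompact ((fun z => v + z) '' ((1 + t) • L)) :=
      (hL.smul _).image (continuous_const.add continuous_id)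
    have h := vol_add_segment i hL hT (l := t * (a + b) / 2) (by positivity) (by
      intro z hz u hu
      refine ⟨z + Pi.single i (u + t * (b - a) / 2), ?_, ?_⟩
      · rw [hc.add_smul zero_le_one ht.le, one_smul]
        refine add_mem_add hz ⟨Pi.single i ((u + t * (b - a) / 2) / t), ?_, ?_⟩
        · set r := (u + t * (b - a) / 2) / t
          have hr : -a ≤ r ∧ r ≤ b := by
            simp only [r]; rw [le_div_iff₀ ht, div_le_iff₀ ht]
            constructor <;> nlinarith [hu.1, hu.2]
          rcases eq_or_lt_of_le (by linarith : (0 : ℝ) ≤ a + b) with e | e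
          · have : r = b := by linarith
            rwa [this]
          · have hm := hc hpa hpb (show 0 ≤ (b - r) / (a + b) from div_nonneg (by linarith) e.le)
              (show 0 ≤ (r + a) / (a + b) from div_nonneg (by linarith) e.le)
              (by rw [← add_div, div_eq_one_iff_eq e.ne']; ring)
            convert hm using 1
            rw [← Pi.single_smul', ← Pi.single_smul', ← Pi.single_add]
            congr 1
            simp only [smul_eq_mul]
            field_simp
            ring
        · simp only [← Pi.single_smul', smul_eq_mul]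
          congr 1
          field_simp
      · funext j
        by_cases hj : j = i
        · subst hj; simp [v]; ring
        · simp [v, Pi.single_eq_of_ne hj])
    have e : volume.real ((fun z => v + z) '' ((1 + t) • L)) =
        (1 + t) ^ (n + 1) * volume.real L := by
      rw [measureReal_def, Set.image_add_left, measure_preimage_add,
        Measure.addHaar_smul_of_nonneg _ (by linarith : (0:ℝ) ≤ 1 + t), ENNReal.toReal_mul,
        ENNReal.toReal_ofReal (by positivity), finrank_fin_fun]
      rfl
    rw [e] at h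
    simp only [W]
    linarith
  by_contra hlt
  push Not at hlt
  have hd : HasDerivAt (fun t : ℝ => (1 + t) ^ (n + 1) * volume.real L - volume.real L - t * W)
      (((n : ℝ) + 1) * volume.real L - W) 0 := by
    have h1 := ((hasDerivAt_id (0 : ℝ)).const_add 1).pow (n + 1)
    have h2 := ((h1.mul_const (volume.real L)).sub_const (volume.real L)).sub
      ((hasDerivAt_id (0 : ℝ)).mul_const W)
    simpa [Pi.sub_def] using h2
  have hs := hasDerivWithinAt_iff_tendsto_slope.mp (hd.hasDerivWithinAt (s := Ioi 0))
  rw [Set.sdiff_singleton_eq_self (by simp : (0 : ℝ) ∉ Ioi (0 : ℝ))] at hs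
  have : (0 : ℝ) ≤ ((n : ℝ) + 1) * volume.real L - W := by
    refine ge_of_tendsto hs (eventually_nhdsWithin_of_forall fun t ht => ?_)
    have := main t ht
    rw [slope_def_field]
    simp only [add_zero, one_pow, zero_mul, sub_zero, one_mul, sub_self]
    exact div_nonneg (by linarith) (le_of_lt ht)
  linarith

lemma vol_part {K : Set (Fin (n + 1) → ℝ)} (hK : Body K) {r : ℝ}
    (hball : Metric.closedBall 0 r ⊆ K) {c : ℝ} (hc : |c| ≤ r / 2)
    {H : Set (Fin (n + 1) → ℝ)} (hH : ∀ x : Fin (n + 1) → ℝ, |x 0 - c| < r / 2 → x ∈ H)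
    (hr : 0 < r) : 0 < volume.real (K ∩ H) := by
  have hsub : Metric.ball (Pi.single 0 c) (r / 2) ⊆ K ∩ H := by
    intro x hx
    rw [Metric.mem_ball, dist_eq_norm] at hx
    refine ⟨hball ?_, hH x ?_⟩
    · rw [mem_closedBall_zero_iff]
      have h1 := norm_le_insert' x (Pi.single (0 : Fin (n + 1)) c)
      rw [Pi.norm_single, Real.norm_eq_abs] at h1
      linarith
    · have h1 := norm_le_pi_norm (x - Pi.single (0 : Fin (n + 1)) c) 0
      rw [Pi.sub_apply, Pi.single_eq_same, Real.norm_eq_abs] at h1
      linarith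
  exact ENNReal.toReal_pos (Measure.measure_pos_of_nonempty_interior volume
    ⟨Pi.single 0 c, mem_interior.mpr ⟨_, hsub, Metric.isOpen_ball,
      Metric.mem_ball_self (by linarith)⟩⟩).ne'
    (ne_top_of_le_ne_top hK.cpt.measure_ne_top (measure_mono inter_subset_left))

/-- The step without symmetry. -/
theorem step_free {K : Set (Fin (n + 1) → ℝ)} (hK : Body K) :
    4 * vp (sec 0 K) ≤ ((n : ℝ) + 1) ^ 2 * vp K := by
  classical
  set S := volume.real (sec 0 K)
  set P := volume.real (K ∩ {x | 0 ≤ x 0})
  set M := volume.real (K ∩ {x | x 0 ≤ 0})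
  obtain ⟨r, hr, hball⟩ := hK.symm_mem
  have hpos : 0 < P ∧ 0 < M :=
    ⟨vol_part hK hball (H := {x | 0 ≤ x 0}) (abs_of_pos (half_pos hr)).le (fun x hx => by
        show 0 ≤ x 0
        linarith [(abs_lt.mp hx).1]) hr,
      vol_part hK hball (c := -(r / 2)) (by rw [abs_neg, abs_of_pos (half_pos hr)]) (H := {x | x 0 ≤ 0}) (fun x hx => by
        show x 0 ≤ 0
        linarith [(abs_lt.mp hx).2]) hr⟩
  have side : ∀ b : Bool, ∀ x ∈ K, 0 ≤ sg b * x 0 → sg b * x 0 * S ≤
      (n + 1) * volume.real (K ∩ {x | 0 ≤ sg b * x 0}) := by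
    intro b x hx h0
    have h1 := cone_hs_le hK.cpt hK.cvx {0} (fun _ => b) (x := x)
      ⟨hx, fun i hi => by rw [Finset.mem_singleton] at hi; subst hi; exact h0⟩
    have hset : hs ({0} : Finset (Fin (n + 1))) (fun _ => b) = {x | 0 ≤ sg b * x 0} := by
      ext x; simp [hs]
    have hQ : {q : Fin n → ℝ | q ∈ sec 0 K ∧ ∀ k, (0 : Fin (n + 1)).succAbove k ∈ ({0} : Finset _) →
        0 ≤ sg b * q k} = sec 0 K := by
      ext q; simp
    rw [Finset.sum_singleton, hQ, hset] at h1
    have e : |x 0| = sg b * x 0 := by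
      rw [← abs_of_nonneg h0, abs_mul]
      rcases sg_eq_or b with h | h <;> simp [h]
    rw [e, div_mul_eq_mul_div, div_le_iff₀ (by positivity)] at h1
    linarith
  have hS0 : 0 ≤ S := measureReal_nonneg
  set a := S / ((n + 1) * M)
  set c := S / ((n + 1) * P)
  have ha : 0 ≤ a := by have := hpos.2; positivity
  have hc : 0 ≤ c := by have := hpos.1; positivity
  have hup : Pi.single 0 c ∈ pol K := by
    intro x hx
    rw [dotProduct_single]
    rcases le_total 0 (x 0) with h | h
    · have := side true x hx (by simpa [sg] using h)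
      simp only [sg, if_true, one_mul] at this
      simp only [c]
      rw [mul_div_assoc', div_le_one (by have := hpos.1; positivity)]
      exact this
    · nlinarith
  have hdown : Pi.single 0 (-a) ∈ pol K := by
    intro x hx
    rw [dotProduct_single]
    rcases le_total (x 0) 0 with h | h
    · have := side false x hx (by simp [sg]; linarith)
      have eM : {x : Fin (n + 1) → ℝ | 0 ≤ sg false * x 0} = {x | x 0 ≤ 0} := by
        ext x; simp [sg]
      rw [eM] at this
      simp [sg] at this
      simp only [a]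
      rw [mul_neg, ← neg_mul, mul_div_assoc', div_le_one (by have := hpos.2; positivity)]
      linarith
    · nlinarith
  have h2 := segment_le 0 hK.pol_cpt (pol_cvx K) ha hc hdown hup
  have h3 : (a + c) * volume.real (pol (sec 0 K)) ≤ (n + 1) * volume.real (pol K) :=
    le_trans (mul_le_mul_of_nonneg_left
      (measureReal_mono (pol_sec_subset hK 0) (hK.pol_cpt.image
        (f := fun z => (0 : Fin (n + 1)).removeNth z)
        (by unfold Fin.removeNth; fun_prop)).measure_ne_top) (by positivity)) h2
  have hV : volume.real K = P + M := vol_halves hK.cpt 0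
  have h4 : 4 * S / ((n + 1) * (P + M)) ≤ a + c := by
    have h1 := hpos.1; have h2 := hpos.2
    simp only [a, c]
    rw [div_add_div _ _ (by positivity) (by positivity), div_le_div_iff₀ (by positivity) (by positivity)]
    nlinarith [mul_nonneg (mul_nonneg hS0 (sq_nonneg (P - M))) (by positivity : (0 : ℝ) ≤ (n + 1) ^ 2)]
  have h5 := (mul_le_mul_of_nonneg_right h4 (measureReal_nonneg (μ := volume)
    (s := pol (sec 0 K)))).trans h3
  rw [div_mul_eq_mul_div, div_le_iff₀ (by have := hpos.1; have := hpos.2; positivity)] at h5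
  simp only [vp, hV]
  change 4 * (S * _) ≤ _
  nlinarith

/-- The bound. -/
noncomputable def bd (n j : ℕ) : ℝ :=
  (4 : ℝ) ^ n * (Nat.factorial j : ℝ) / (Nat.factorial n : ℝ) ^ 2

lemma bd_succ (n j : ℕ) :
    ((n : ℝ) + 1) ^ 2 * bd (n + 1) (j + 1) = 4 * ((j : ℝ) + 1) * bd n j := by
  simp only [bd, Nat.factorial_succ, pow_succ]
  push_cast
  field_simp

lemma bd_zero (n : ℕ) : ((n : ℝ) + 1) ^ 2 * bd (n + 1) 0 = 4 * bd n 0 := by
  simp only [bd, Nat.factorial_succ, pow_succ]
  push_cast
  field_simp

/-- The volume product about the origin. -/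
theorem general_center : ∀ (n : ℕ) (K : Set (Fin n → ℝ)) (J : Finset (Fin n)), Body K → Sy K J →
    bd n J.card ≤ vp K
  | 0, K, J, hK, _ => by
    have h0 : K = univ := eq_univ_of_forall fun x => by
      rw [Subsingleton.elim x 0]; exact interior_subset hK.zero
    have h1 : pol K = univ := eq_univ_of_forall fun y x _ => by simp [dotProduct]
    have hJ : J = ∅ := Finset.eq_empty_of_isEmpty J
    simp [bd, vp, h0, hJ, measureReal_def, volume_pi]
    simp [pol, dotProduct]
  | m + 1, K, J, hK, hS => by
    have hm : (0 : ℝ) < ((m : ℝ) + 1) ^ 2 := by positivity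
    refine le_of_mul_le_mul_left ?_ hm
    rcases eq_or_ne J ∅ with rfl | hJ
    · have ih := general_center m (sec 0 K) ∅ (hK.sec 0) fun x _ i hi => absurd hi (by simp)
      rw [Finset.card_empty] at ih ⊢
      rw [bd_zero]
      linarith [step_free hK]
    · obtain ⟨p, hp⟩ : ∃ p, J.card = p + 1 :=
        Nat.exists_eq_succ_of_ne_zero (Finset.card_ne_zero.mpr (Finset.nonempty_iff_ne_empty.mpr hJ))
      rw [hp, bd_succ]
      have hsum : ((p : ℝ) + 1) * bd m p ≤ ∑ i ∈ J, vp (sec i K) := by
        have := Finset.card_nsmul_le_sum J (fun i => vp (sec i K)) (bd m p) fun i hi => by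
          have e := card_secJ hi
          rw [hp] at e
          have := general_center m (sec i K) (secJ i J) (hK.sec i) (hS.sec i)
          rwa [show (secJ i J).card = p by omega] at this
        rw [hp, nsmul_eq_mul] at this
        exact_mod_cast this
      linarith [step_sym hK hS]

/-- Layers of a positively homogeneous function. -/
lemma lay {φ : (Fin n → ℝ) → ℝ} (hφ : Continuous φ) (h0 : ∀ y, 0 ≤ φ y)
    (hh : ∀ c : ℝ, 0 ≤ c → ∀ y, φ (c • y) = c * φ y) :
    ∫⁻ y, ENNReal.ofReal (max (1 - φ y) 0) =
      (∫⁻ t in Ioo (0 : ℝ) 1, ENNReal.ofReal ((1 - t) ^ n)) * volume {y | φ y ≤ 1} := by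
  rw [lintegral_eq_lintegral_meas_le volume (f := fun y => max (1 - φ y) 0)
    (ae_of_all _ fun y => le_max_right _ _)
    ((continuous_const.sub hφ).max continuous_const).aemeasurable,
    ← lintegral_mul_const _ (by fun_prop)]
  have hE : ∀ᵐ t : ℝ ∂volume, t ∈ Ioi (0 : ℝ) → volume {y | t ≤ max (1 - φ y) 0} =
      (Ioo (0 : ℝ) 1).indicator
        (fun t => ENNReal.ofReal ((1 - t) ^ n) * volume {y | φ y ≤ 1}) t := by
    filter_upwards [Measure.ae_ne volume (1 : ℝ)] with t ht1 ht
    have ht' : (0 : ℝ) < t := ht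
    rcases lt_or_gt_of_ne ht1 with h | h
    · have hs : {y | t ≤ max (1 - φ y) 0} = (1 - t) • {y | φ y ≤ 1} := by
        ext y
        rw [Set.mem_smul_set_iff_inv_smul_mem₀ (by linarith : (1 - t) ≠ 0)]
        show t ≤ max (1 - φ y) 0 ↔ φ ((1 - t)⁻¹ • y) ≤ 1
        rw [hh _ (inv_nonneg.mpr (by linarith)), inv_mul_le_iff₀ (by linarith), mul_one, le_max_iff]
        constructor
        · rintro (h' | h') <;> linarith
        · intro h'; left; linarith
      rw [Set.indicator_of_mem (show t ∈ Ioo (0 : ℝ) 1 from ⟨ht', h⟩), hs,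
        Measure.addHaar_smul_of_nonneg _ (by linarith : (0 : ℝ) ≤ 1 - t), finrank_fin_fun]
    · have hs : {y | t ≤ max (1 - φ y) 0} = ∅ := by
        ext y
        simp only [mem_ofPred_eq, mem_empty_iff_false, iff_false, not_le]
        exact max_lt (by linarith [h0 y]) ht'
      rw [Set.indicator_of_notMem (by simp; intro; linarith), hs, measure_empty]
  rw [setLIntegral_congr_fun_ae measurableSet_Ioi hE, setLIntegral_indicator measurableSet_Ioo,
    Set.inter_eq_left.mpr fun t ht => ht.1]

/-- Averaging opposite tilts of a gauge. -/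
lemma tilt_vol {g d : (Fin n → ℝ) → ℝ} (hgm : Continuous g) (hdm : Continuous d)
    (hpos : ∀ y, 0 ≤ g y - d y ∧ 0 ≤ g y + d y)
    (hg : ∀ c : ℝ, 0 ≤ c → ∀ y, g (c • y) = c * g y)
    (hd : ∀ c : ℝ, 0 ≤ c → ∀ y, d (c • y) = c * d y)
    (hsame : volume {y | g y + d y ≤ 1} = volume {y | g y - d y ≤ 1}) :
    volume {y | g y ≤ 1} ≤ volume {y | g y - d y ≤ 1} := by
  set c := ∫⁻ t in Ioo (0 : ℝ) 1, ENNReal.ofReal ((1 - t) ^ n)
  have hc0 : c ≠ 0 := by
    refine ((setLIntegral_pos_iff (by fun_prop)).mpr ?_).ne'
    refine lt_of_lt_of_le (show (0 : ENNReal) < volume (Ioo (0 : ℝ) 1) by simp)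
      (measure_mono fun t ht => ⟨?_, ht⟩)
    simp only [Function.mem_support, ne_eq, ENNReal.ofReal_eq_zero, not_le]
    have := ht.2
    positivity
  have hct : c ≠ ⊤ := by
    refine ne_top_of_le_ne_top (b := volume (Ioo (0 : ℝ) 1)) (by simp) ?_
    refine le_trans (setLIntegral_mono measurable_const fun t ht => ?_) (le_of_eq (setLIntegral_one _))
    exact ENNReal.ofReal_le_one.mpr (pow_le_one₀ (by linarith [ht.2]) (by linarith [ht.1]))
  have h1 := lay hgm (fun y => by linarith [(hpos y).1, (hpos y).2]) hg
  have h2 := lay (φ := fun y => g y - d y) (hgm.sub hdm) (fun y => (hpos y).1)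
    (fun c hc y => by simp only [hg c hc, hd c hc]; ring)
  have h3 := lay (φ := fun y => g y + d y) (hgm.add hdm) (fun y => (hpos y).2)
    (fun c hc y => by simp only [hg c hc, hd c hc]; ring)
  have hle : ∫⁻ y, (ENNReal.ofReal (max (1 - g y) 0) + ENNReal.ofReal (max (1 - g y) 0)) ≤
      ∫⁻ y, (ENNReal.ofReal (max (1 - (g y - d y)) 0) + ENNReal.ofReal (max (1 - (g y + d y)) 0)) := by
    refine lintegral_mono fun y => ?_
    rw [← ENNReal.ofReal_add (le_max_right _ _) (le_max_right _ _),
      ← ENNReal.ofReal_add (le_max_right _ _) (le_max_right _ _)]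
    refine ENNReal.ofReal_le_ofReal ?_
    rcases le_total (1 - g y) 0 with h | h
    · rw [max_eq_right h]
      linarith [le_max_right (1 - (g y - d y)) 0, le_max_right (1 - (g y + d y)) 0]
    · rw [max_eq_left h]
      linarith [le_max_left (1 - (g y - d y)) 0, le_max_left (1 - (g y + d y)) 0]
  rw [lintegral_add_left (by fun_prop), lintegral_add_left (by fun_prop), h1, h2, h3, hsame,
    ← two_mul, ← two_mul] at hle
  exact (ENNReal.mul_le_mul_iff_right hc0 hct).mp
    ((ENNReal.mul_le_mul_iff_right two_ne_zero ENNReal.ofNat_ne_top).mp hle)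

end Vale.Agent.P248
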