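import Vale.Agent.P248.Partition

/-!
P248: Mahler's inequality for symmetric bodies invariant under sign changes and permutations of all
coordinates but two.
-/

open MeasureTheory Set Real
open scoped Matrix

namespace Vale.Agent.P248

variable {n : ℕ}

lemma sgn_neg (x : Fin n → ℝ) : sgn (fun _ => false) x = -x := funext fun i => by simp [sgn, sg]

/-- From sections to the body. -/
lemma bound_succ {K : Set (Fin (n + 1) → ℝ)} (hK : Body K) (he : Equi K)
    (hs : ∀ i, Equi (sec i K)) (hb : ∀ i, (4 : ℝ) ^ n / (Nat.factorial n : ℝ) ≤ vp (sec i K)) :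
    (4 : ℝ) ^ (n + 1) / (Nat.factorial (n + 1) : ℝ) ≤ vp K := by
  have h := step hK he hs
  have h2 : ((n : ℝ) + 1) * ((4 : ℝ) ^ n / (Nat.factorial n : ℝ)) ≤ ∑ i, vp (sec i K) := by
    have := Finset.sum_le_sum (s := Finset.univ) fun i _ => hb i
    simpa using this
  rw [Nat.factorial_succ, Nat.cast_mul, pow_succ', div_le_iff₀ (by positivity)]
  have h3 : (4 : ℝ) ^ n ≤ (Nat.factorial n : ℝ) * ((∑ i, vp (sec i K)) / ((n : ℝ) + 1)) := by
    rw [mul_div_assoc', le_div_iff₀ (by positivity)]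
    rw [mul_div_assoc', div_le_iff₀ (by positivity)] at h2
    nlinarith
  push_cast
  calc (4 : ℝ) * 4 ^ n ≤ 4 * ((Nat.factorial n : ℝ) * ((∑ i, vp (sec i K)) / ((n : ℝ) + 1))) := by linarith
    _ ≤ (Nat.factorial n : ℝ) * (((n : ℝ) + 1) * vp K) := by
        have : 4 * ((∑ i, vp (sec i K)) / ((n : ℝ) + 1)) ≤ ((n : ℝ) + 1) * vp K := by
          rw [mul_div_assoc', div_le_iff₀ (by positivity)]; nlinarith
        nlinarith [mul_le_mul_of_nonneg_left this (Nat.cast_nonneg (α := ℝ) (Nat.factorial n))]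
    _ = vp K * (((n : ℝ) + 1) * (Nat.factorial n : ℝ)) := by ring

/-- Invariant under all sign changes. -/
def Unc (K : Set (Fin n → ℝ)) : Prop := ∀ s, ∀ x ∈ K, sgn s x ∈ K

lemma sgn_insertNth (i : Fin (n + 1)) (b : Bool) (s : Fin n → Bool) (y : Fin n → ℝ) :
    sgn (i.insertNth b s) (i.insertNth (α := fun _ => ℝ) 0 y) =
      i.insertNth (α := fun _ => ℝ) 0 (sgn s y) := by
  funext j
  rcases i.eq_self_or_eq_succAbove j with rfl | ⟨k, rfl⟩ <;> simp [sgn]

lemma Unc.equi {K : Set (Fin n → ℝ)} (hK : IsCompact K) (h : Unc K) : Equi K :=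
  equi_of_const hK fun s t => vol_orth_invariant hK s t fun x hx => h _ x hx

lemma Unc.sec {K : Set (Fin (n + 1) → ℝ)} (h : Unc K) (i : Fin (n + 1)) : Unc (sec i K) := by
  intro s y hy
  have := h (i.insertNth true s) _ hy
  rwa [sgn_insertNth] at this

/-- Mahler's inequality for unconditional bodies. -/
theorem mahler_unc : ∀ (n : ℕ) (K : Set (Fin n → ℝ)), Body K → Unc K →
    (4 : ℝ) ^ n / (Nat.factorial n : ℝ) ≤ vp K
  | 0, K, hK, _ => by
    have h0 : K = univ := eq_univ_of_forall fun x => by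
      rw [Subsingleton.elim x 0]; exact interior_subset hK.zero
    have h1 : pol K = univ := eq_univ_of_forall fun y x _ => by simp [dotProduct]
    simp [vp, h0, measureReal_def, volume_pi]
    simp [pol, dotProduct]
  | m + 1, K, hK, h => bound_succ hK (h.equi hK.cpt)
      (fun i => (h.sec i).equi (hK.sec i).cpt) fun i => mahler_unc m _ (hK.sec i) (h.sec i)

variable {m : ℕ}

/-- Invariant under sign changes with equal signs in the free plane. -/
def Inv (K : Set (Fin (m + 2) → ℝ)) : Prop := ∀ s, s 0 = s 1 → ∀ x ∈ K, sgn s x ∈ K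

/-- Invariant under permutations fixing the free plane. -/
def PInv (K : Set (Fin (m + 2) → ℝ)) : Prop :=
  ∀ σ : Equiv.Perm (Fin (m + 2)), σ 0 = 0 → σ 1 = 1 → ∀ x ∈ K, (fun i => x (σ i)) ∈ K

lemma Inv.sbody {K : Set (Fin (m + 2) → ℝ)} (hK : Body K) (h : Inv K) : SBody K :=
  ⟨hK, fun x hx => sgn_neg x ▸ h _ rfl x hx⟩

lemma Inv.vol_eq {K : Set (Fin (m + 2) → ℝ)} (hK : IsCompact K) (h : Inv K)
    (s : Fin (m + 2) → Bool) : volume.real (K ∩ orth s) =
      volume.real (K ∩ orth (Fin.cons true (Fin.cons (s 0 == s 1) fun _ => true))) := by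
  refine vol_orth_invariant hK _ _ fun x hx => h _ ?_ x hx
  cases s 0 <;> cases s 1 <;> simp

/-- A symmetric body quartered by the axes of the free plane is equally cut by the orthants. -/
lemma Inv.equi {K : Set (Fin (m + 2) → ℝ)} (hK : IsCompact K) (h : Inv K)
    (hq : volume.real (K ∩ {x | 0 ≤ x 0 ∧ 0 ≤ x 1}) = volume.real K / 4) : Equi K := by
  set F := fun b => volume.real (K ∩ orth (Fin.cons true (Fin.cons b fun _ : Fin m => true)))
  have hF : ∀ s, volume.real (K ∩ orth s) = F (s 0 == s 1) := fun s => h.vol_eq hK s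
  have reindex : ∀ G : (Fin (m + 2) → Bool) → ℝ, ∑ s, G s =
      ∑ a, ∑ b, ∑ r : Fin m → Bool, G (Fin.cons a (Fin.cons b r)) := by
    intro G
    rw [← (Fin.consEquiv fun _ : Fin (m + 2) => Bool).sum_comp, Fintype.sum_prod_type]
    refine Finset.sum_congr rfl fun a _ => ?_
    rw [← (Fin.consEquiv fun _ : Fin (m + 1) => Bool).sum_comp, Fintype.sum_prod_type]
    rfl
  have hQc : IsClosed {x : Fin (m + 2) → ℝ | 0 ≤ x 0 ∧ 0 ≤ x 1} :=
    (isClosed_le continuous_const (continuous_apply 0)).inter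
      (isClosed_le continuous_const (continuous_apply 1))
  have h1 := sum_orth hK
  have h2 := sum_orth (hK.inter_right hQc)
  rw [hq] at h2
  have hG : ∀ s, volume.real (K ∩ {x | 0 ≤ x 0 ∧ 0 ≤ x 1} ∩ orth s) =
      if s 0 && s 1 then volume.real (K ∩ orth s) else 0 := by
    intro s
    by_cases hs : s 0 && s 1
    · rw [if_pos hs]
      simp at hs
      congr 1
      ext x
      refine ⟨fun hx => ⟨hx.1.1, hx.2⟩, fun hx => ⟨⟨hx.1, ?_, ?_⟩, hx.2⟩⟩
      · simpa [hs.1, sg] using hx.2 0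
      · simpa [hs.2, sg] using hx.2 1
    · rw [if_neg hs, measureReal_def, measure_mono_null
        (t := {x | x 0 = 0} ∪ {x | x 1 = 0}) ?_ (measure_union_null (null_coord 0) (null_coord 1))]
      · rfl
      rintro x ⟨⟨_, a0, a1⟩, hx⟩
      have b0 := hx 0; have b1 := hx 1
      cases h0 : s 0
      · left; simp [h0, sg] at b0; exact le_antisymm b0 a0
      · right
        have h1' : s 1 = false := by simpa [h0] using hs
        simp [h1', sg] at b1; exact le_antisymm b1 a1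
  rw [Finset.sum_congr rfl fun s _ => hG s] at h2
  rw [reindex] at h1 h2
  simp only [hF, Fin.cons_zero, Fin.cons_one, Fintype.sum_bool] at h1 h2
  simp at h1 h2
  have e : F true = F false := by
    have hp : (0 : ℝ) < 2 ^ m := by positivity
    nlinarith
  refine equi_of_const hK fun s t => ?_
  rw [hF, hF]
  cases (s 0 == s 1) <;> cases (t 0 == t 1) <;> simp [e]

/-- The change of axes in the free plane. -/
noncomputable def ax (θ φ : ℝ) : (Fin (m + 2) → ℝ) →ₗ[ℝ] (Fin (m + 2) → ℝ) :=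
  LinearMap.pi fun i => if i = 0 then cos θ • LinearMap.proj 0 + cos φ • LinearMap.proj 1
    else if i = 1 then sin θ • LinearMap.proj 0 + sin φ • LinearMap.proj 1 else LinearMap.proj i

lemma ax_apply (θ φ : ℝ) (x : Fin (m + 2) → ℝ) (i : Fin (m + 2)) : ax θ φ x i =
    if i = 0 then cos θ * x 0 + cos φ * x 1
    else if i = 1 then sin θ * x 0 + sin φ * x 1 else x i := by
  simp only [ax, LinearMap.pi_apply]
  split_ifs <;> rfl

lemma ax_sgn (θ φ : ℝ) {s : Fin (m + 2) → Bool} (hs : s 0 = s 1) (x : Fin (m + 2) → ℝ) :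
    ax θ φ (sgn s x) = sgn s (ax θ φ x) := by
  funext i
  simp only [ax_apply, sgn]
  split_ifs with h0 h1
  · subst h0; rw [← hs]; ring
  · subst h1; rw [← hs]; ring
  · rfl

lemma ax_perm (θ φ : ℝ) {σ : Equiv.Perm (Fin (m + 2))} (h0 : σ 0 = 0) (h1 : σ 1 = 1)
    (x : Fin (m + 2) → ℝ) : ax θ φ (fun i => x (σ i)) = fun i => ax θ φ x (σ i) := by
  funext i
  have e0 : σ i = 0 ↔ i = 0 := ⟨fun h => σ.injective (h.trans h0.symm), fun h => h ▸ h0⟩
  have e1 : σ i = 1 ↔ i = 1 := ⟨fun h => σ.injective (h.trans h1.symm), fun h => h ▸ h1⟩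
  simp only [ax_apply, e0, e1, h0, h1]

lemma ax_injective {θ φ : ℝ} (h : sin (φ - θ) ≠ 0) :
    Function.Injective (ax (m := m) θ φ) := by
  rw [injective_iff_map_eq_zero]
  intro x hx
  have e0 := congrFun hx 0
  have e1 := congrFun hx 1
  simp [ax_apply] at e0 e1
  rw [sin_sub] at h
  have hx0 : x 0 * (sin φ * cos θ - cos φ * sin θ) = 0 := by
    linear_combination sin φ * e0 - cos φ * e1
  have hx1 : x 1 * (sin φ * cos θ - cos φ * sin θ) = 0 := by
    linear_combination cos θ * e1 - sin θ * e0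
  funext i
  rcases eq_or_ne i 0 with rfl | i0
  · exact (mul_eq_zero.mp hx0).resolve_right h
  rcases eq_or_ne i 1 with rfl | i1
  · exact (mul_eq_zero.mp hx1).resolve_right h
  simpa [ax_apply, i0, i1] using congrFun hx i

lemma det_ax {θ φ : ℝ} (h : sin (φ - θ) ≠ 0) : LinearMap.det (ax (m := m) θ φ) ≠ 0 := by
  exact (LinearEquiv.isUnit_det' (LinearEquiv.ofInjectiveEndo _ (ax_injective h))).ne_zero

lemma vol_preimage (f : (Fin n → ℝ) →ₗ[ℝ] (Fin n → ℝ)) (hf : LinearMap.det f ≠ 0)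
    (S : Set (Fin n → ℝ)) : volume.real (f ⁻¹' S) = |(LinearMap.det f)⁻¹| * volume.real S := by
  rw [measureReal_def, Measure.addHaar_preimage_linearMap volume hf, ENNReal.toReal_mul,
    ENNReal.toReal_ofReal (abs_nonneg _)]
  rfl

lemma body_preimage (f : (Fin n → ℝ) →ₗ[ℝ] (Fin n → ℝ)) (hf : Function.Injective f)
    {K : Set (Fin n → ℝ)} (hK : Body K) : Body (f ⁻¹' K) := by
  let e := (LinearEquiv.ofInjectiveEndo f hf).toContinuousLinearEquiv
  have he : ∀ x, e x = f x := fun x => rfl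
  refine ⟨?_, hK.cvx.linear_preimage f, ?_⟩
  · have : f ⁻¹' K = e.symm '' K := by
      ext x
      refine ⟨fun hx => ⟨f x, hx, by rw [← he]; simp⟩, ?_⟩
      rintro ⟨y, hy, rfl⟩
      show f _ ∈ K
      rw [← he]; simpa using hy
    rw [this]; exact hK.cpt.image e.symm.continuous
  · refine preimage_interior_subset_interior_preimage f.continuous_on_pi ?_
    show f 0 ∈ interior K
    simpa using hK.zero

lemma vp_preimage (f : (Fin n → ℝ) →ₗ[ℝ] (Fin n → ℝ)) (hf : LinearMap.det f ≠ 0)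
    (K : Set (Fin n → ℝ)) : vp (f ⁻¹' K) = vp K := by
  classical
  set M := LinearMap.toMatrix' f with hM
  have hdet : M.det = LinearMap.det f := LinearMap.det_toMatrix' f
  have hu : IsUnit M.det := isUnit_iff_ne_zero.mpr (hdet ▸ hf)
  have hfM : ∀ x, f x = M *ᵥ x := fun x => (LinearMap.toMatrix'_mulVec f x).symm
  set g := Matrix.toLin' (M⁻¹)ᵀ
  have hg : LinearMap.det g = (LinearMap.det f)⁻¹ := by
    rw [LinearMap.det_toLin', Matrix.det_transpose, Matrix.det_nonsing_inv, hdet,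
      Ring.inverse_eq_inv']
  have hp : pol (f ⁻¹' K) = g ⁻¹' pol K := by
    ext y
    have hdot : ∀ x, x ⬝ᵥ g y = (M⁻¹ *ᵥ x) ⬝ᵥ y := by
      intro x
      rw [Matrix.toLin'_apply, Matrix.mulVec_transpose, dotProduct_comm,
        ← Matrix.dotProduct_mulVec, dotProduct_comm]
    constructor
    · intro h x hx
      rw [hdot]
      refine h _ ?_
      show f _ ∈ K
      rwa [hfM, Matrix.mulVec_mulVec, Matrix.mul_nonsing_inv _ hu, Matrix.one_mulVec]
    · intro h x hx
      have := h _ hx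
      rw [hdot, hfM, Matrix.mulVec_mulVec, Matrix.nonsing_inv_mul _ hu, Matrix.one_mulVec] at this
      exact this
  rw [vp, vp, hp, vol_preimage f hf, vol_preimage g (by rw [hg]; exact inv_ne_zero hf), hg, inv_inv,
    abs_inv]
  field_simp

lemma quadrant {K : Set (Fin (m + 2) → ℝ)} {θ φ : ℝ} (h : 0 < sin (φ - θ))
    (hQ : Q K θ φ = volume.real K / 4) :
    volume.real (ax θ φ ⁻¹' K ∩ {x | 0 ≤ x 0 ∧ 0 ≤ x 1}) = volume.real (ax θ φ ⁻¹' K) / 4 := by
  have hset : ax θ φ ⁻¹' K ∩ {x | 0 ≤ x 0 ∧ 0 ≤ x 1} = ax θ φ ⁻¹' (K ∩ Sct θ φ) := by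
    ext x
    have c1 : cr θ (ax θ φ x) = sin (φ - θ) * x 1 := by
      simp [cr_apply, ax_apply, sin_sub]; ring
    have c2 : cr φ (ax θ φ x) = -(sin (φ - θ) * x 0) := by
      simp [cr_apply, ax_apply, sin_sub]; ring
    simp only [mem_inter_iff, mem_preimage, Sct, mem_ofPred_eq, c1, c2, neg_nonpos,
      mul_nonneg_iff_of_pos_left h]
    tauto
  rw [hset, vol_preimage _ (det_ax h.ne'), vol_preimage _ (det_ax h.ne')]
  rw [Q] at hQ
  rw [hQ]; ring

lemma succAbove_fix {i : Fin (m + 3)} (h0 : i ≠ 0) (h1 : i ≠ 1) :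
    i.succAbove 0 = 0 ∧ i.succAbove 1 = 1 := by
  have hi : 2 ≤ (i : ℕ) := by
    have a : (i : ℕ) ≠ 0 := fun h => h0 (Fin.ext h)
    have b : (i : ℕ) ≠ 1 := fun h => h1 (Fin.ext (by simpa using h))
    omega
  refine ⟨Fin.succAbove_ne_zero_zero h0, Fin.ext ?_⟩
  rw [Fin.succAbove_of_castSucc_lt _ _ (Fin.lt_def.mpr (by simp; omega))]
  simp

lemma Inv.sec {K : Set (Fin (m + 3) → ℝ)} (h : Inv K) {i : Fin (m + 3)} (h0 : i ≠ 0) (h1 : i ≠ 1) :
    Inv (sec i K) := by
  intro s hs y hy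
  obtain ⟨e0, e1⟩ := succAbove_fix h0 h1
  have := h (i.insertNth true s) (by
    rw [← e0, ← e1, Fin.insertNth_apply_succAbove, Fin.insertNth_apply_succAbove, hs]) _ hy
  rwa [sgn_insertNth] at this

lemma PInv.sec {K : Set (Fin (m + 3) → ℝ)} (h : PInv K) {i : Fin (m + 3)} (h0 : i ≠ 0)
    (h1 : i ≠ 1) : PInv (sec i K) := by
  intro σ hσ0 hσ1 y hy
  obtain ⟨e0, e1⟩ := succAbove_fix h0 h1
  set τ : Equiv.Perm (Fin (m + 3)) := σ.extendDomain (finSuccAboveEquiv i)
  have hτ : ∀ k, τ (i.succAbove k) = i.succAbove (σ k) := fun k =>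
    Equiv.Perm.extendDomain_apply_image σ (finSuccAboveEquiv i) k
  have hτi : τ i = i := Equiv.Perm.extendDomain_apply_not_subtype _ _ (by simp)
  have := h τ (by rw [← e0, hτ, hσ0]) (by rw [← e1, hτ, hσ1]) _ hy
  show i.insertNth 0 _ ∈ K
  convert this using 1
  funext j
  rcases i.eq_self_or_eq_succAbove j with rfl | ⟨k, rfl⟩
  · simp [hτi]
  · simp [hτ]

/-- Equal cutting passes between the sections in the symmetric coordinates. -/
lemma equi_transfer {K : Set (Fin (m + 3) → ℝ)} (h : PInv K) (hc : IsClosed K)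
    {i j : Fin (m + 3)} (hi0 : i ≠ 0) (hi1 : i ≠ 1) (hj0 : j ≠ 0) (hj1 : j ≠ 1)
    (he : Equi (Vale.Agent.P248.sec j K)) : Equi (Vale.Agent.P248.sec i K) := by
  set sw := Equiv.swap i j
  let τ : Fin (m + 2) ≃ Fin (m + 2) :=
    (finSuccAboveEquiv j).trans ((sw.subtypeEquiv (p := fun x => x ≠ j) (q := fun x => x ≠ i)
      (fun x => by simp [sw, Equiv.swap_apply_eq_iff])).trans (finSuccAboveEquiv i).symm)
  have hτ : ∀ k, i.succAbove (τ k) = sw (j.succAbove k) := fun k =>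
    congrArg Subtype.val ((finSuccAboveEquiv i).apply_symm_apply
      ⟨sw (j.succAbove k), by simp [sw, Equiv.swap_apply_eq_iff, Fin.succAbove_ne]⟩)
  have mp : MeasurePreserving (fun q : Fin (m + 2) → ℝ => q ∘ τ) volume volume :=
    (volume_measurePreserving_piCongrLeft (fun _ : Fin (m + 2) => ℝ) τ).symm
  have hsw : ∀ x : Fin (m + 3) → ℝ, x ∈ K ↔ (fun a => x (sw a)) ∈ K := by
    intro x
    have p0 : sw 0 = 0 := Equiv.swap_apply_of_ne_of_ne hi0.symm hj0.symm
    have p1 : sw 1 = 1 := Equiv.swap_apply_of_ne_of_ne hi1.symm hj1.symm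
    refine ⟨fun hx => h sw p0 p1 x hx, fun hx => ?_⟩
    simpa [sw] using h sw p0 p1 _ hx
  have hins : ∀ q : Fin (m + 2) → ℝ, (fun a => i.insertNth (α := fun _ => ℝ) 0 q (sw a)) =
      j.insertNth 0 (q ∘ τ) := by
    intro q
    funext a
    rcases j.eq_self_or_eq_succAbove a with rfl | ⟨k, rfl⟩
    · simp [sw]
    · simp [← hτ]
  have hsec : Vale.Agent.P248.sec i K =
      (fun q : Fin (m + 2) → ℝ => q ∘ τ) ⁻¹' Vale.Agent.P248.sec j K := by
    ext q
    show i.insertNth 0 q ∈ K ↔ j.insertNth 0 (q ∘ τ) ∈ K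
    rw [hsw, hins]
  have horth : ∀ s : Fin (m + 2) → Bool,
      orth s = (fun q : Fin (m + 2) → ℝ => q ∘ τ) ⁻¹' orth (s ∘ τ) := by
    intro s; ext q
    exact ⟨fun hq k => hq (τ k), fun hq k => by simpa using hq (τ.symm k)⟩
  have hm : MeasurableSet (Vale.Agent.P248.sec j K) :=
    (hc.preimage (continuous_insertNth j 0)).measurableSet
  intro s
  rw [hsec, horth s, ← preimage_inter, measureReal_def,
    mp.measure_preimage (hm.inter (closed_orth _).measurableSet).nullMeasurableSet, measureReal_def,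
    mp.measure_preimage hm.nullMeasurableSet]
  exact he (s ∘ τ)

lemma unc_sec_plane {k : ℕ} {K : Set (Fin (k + 2) → ℝ)} (h : Inv K) {i : Fin (k + 2)}
    (hi : i = 0 ∨ i = 1) : Unc (Vale.Agent.P248.sec i K) := by
  intro s y hy
  have hs : i.insertNth (α := fun _ => Bool) (s 0) s 0 = i.insertNth (α := fun _ => Bool) (s 0) s 1 := by
    rcases hi with rfl | rfl
    · rw [Fin.insertNth_apply_same, show (1 : Fin (k + 2)) = (0 : Fin (k + 2)).succAbove 0 by simp,
        Fin.insertNth_apply_succAbove]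
    · rw [Fin.insertNth_apply_same, show (0 : Fin (k + 2)) = (1 : Fin (k + 2)).succAbove 0 by simp,
        Fin.insertNth_apply_succAbove]
  have := h _ hs _ hy
  rwa [sgn_insertNth] at this

lemma inv_ax {K : Set (Fin (m + 2) → ℝ)} (h : Inv K) (θ φ : ℝ) : Inv (ax θ φ ⁻¹' K) := by
  intro s hs x hx
  show ax θ φ (sgn s x) ∈ K
  rw [ax_sgn θ φ hs]; exact h s hs _ hx

lemma pinv_ax {K : Set (Fin (m + 2) → ℝ)} (h : PInv K) (θ φ : ℝ) : PInv (ax θ φ ⁻¹' K) := by
  intro σ h0 h1 x hx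
  show ax θ φ (fun i => x (σ i)) ∈ K
  rw [ax_perm θ φ h0 h1]; exact h σ h0 h1 _ hx

lemma sec_ax (K : Set (Fin (m + 3) → ℝ)) (θ φ : ℝ) {i : Fin (m + 3)} (h0 : i ≠ 0) (h1 : i ≠ 1) :
    Vale.Agent.P248.sec i (ax θ φ ⁻¹' K) = ax θ φ ⁻¹' Vale.Agent.P248.sec i K := by
  obtain ⟨e0, e1⟩ := succAbove_fix h0 h1
  ext y
  show ax θ φ (i.insertNth 0 y) ∈ K ↔ i.insertNth 0 (ax θ φ y) ∈ K
  have : ax θ φ (i.insertNth (α := fun _ => ℝ) 0 y) = i.insertNth 0 (ax θ φ y) := by
    funext j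
    have v0 : i.insertNth (α := fun _ => ℝ) 0 y 0 = y 0 := by
      conv_lhs => rw [← e0, Fin.insertNth_apply_succAbove]
    have v1 : i.insertNth (α := fun _ => ℝ) 0 y 1 = y 1 := by
      conv_lhs => rw [← e1, Fin.insertNth_apply_succAbove]
    rcases i.eq_self_or_eq_succAbove j with rfl | ⟨k, rfl⟩
    · simp [ax_apply, h0, h1]
    · have a0 : i.succAbove k = 0 ↔ k = 0 := by
        conv_lhs => rw [← e0]
        exact Fin.succAbove_right_inj
      have a1 : i.succAbove k = 1 ↔ k = 1 := by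
        conv_lhs => rw [← e1]
        exact Fin.succAbove_right_inj
      simp [ax_apply, a0, a1, v0, v1]
  rw [this]

/-- The induction step in adapted axes. -/
lemma main_adapted {m : ℕ} {K : Set (Fin (m + 2) → ℝ)} (hK : Body K) (h : Inv K) (he : Equi K)
    (hs : ∀ i, i ≠ 0 → i ≠ 1 → Equi (Vale.Agent.P248.sec i K) ∧
      (4 : ℝ) ^ (m + 1) / (Nat.factorial (m + 1) : ℝ) ≤ vp (Vale.Agent.P248.sec i K)) :
    (4 : ℝ) ^ (m + 2) / (Nat.factorial (m + 2) : ℝ) ≤ vp K := by
  have hu : ∀ i : Fin (m + 2), i = 0 ∨ i = 1 → Unc (Vale.Agent.P248.sec i K) :=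
    fun i hi => unc_sec_plane h hi
  refine bound_succ hK he (fun i => ?_) fun i => ?_
  · by_cases hi : i = 0 ∨ i = 1
    · exact (hu i hi).equi (hK.sec i).cpt
    · push Not at hi; exact (hs i hi.1 hi.2).1
  · by_cases hi : i = 0 ∨ i = 1
    · exact mahler_unc _ _ (hK.sec i) (hu i hi)
    · push Not at hi; exact (hs i hi.1 hi.2).2

/-- Mahler's inequality in the class. -/
theorem main : ∀ (m : ℕ) (K : Set (Fin (m + 2) → ℝ)), Body K → Inv K → PInv K →
    (4 : ℝ) ^ (m + 2) / (Nat.factorial (m + 2) : ℝ) ≤ vp K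
  | 0, K, hK, hI, _ => by
    obtain ⟨θ, φ, h1, h2, hQ, -⟩ := exists_common (hI.sbody hK) (hI.sbody hK)
    have hsin : 0 < sin (φ - θ) := sin_pos_of_pos_of_lt_pi (by linarith) (by linarith)
    have hb := body_preimage _ (ax_injective hsin.ne') hK
    rw [← vp_preimage _ (det_ax hsin.ne') K]
    exact main_adapted hb (inv_ax hI θ φ) ((inv_ax hI θ φ).equi hb.cpt (quadrant hsin hQ))
      fun i h0 h1 => absurd i.isLt (by
        have a : (i : ℕ) ≠ 0 := fun h => h0 (Fin.ext h)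
        have b : (i : ℕ) ≠ 1 := fun h => h1 (Fin.ext (by simpa using h))
        omega)
  | k + 1, K, hK, hI, hP => by
    have j0 : (2 : Fin (k + 3)) ≠ 0 := by
      simp [Fin.ext_iff, Nat.mod_eq_of_lt (show 2 < k + 3 by omega)]
    have j1 : (2 : Fin (k + 3)) ≠ 1 := by
      simp [Fin.ext_iff, Nat.mod_eq_of_lt (show 2 < k + 3 by omega)]
    have hCI := hI.sec j0 j1
    obtain ⟨θ, φ, h1, h2, hQ, hQC⟩ := exists_common (hI.sbody hK) (hCI.sbody (hK.sec 2))
    have hsin : 0 < sin (φ - θ) := sin_pos_of_pos_of_lt_pi (by linarith) (by linarith)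
    have hb := body_preimage _ (ax_injective hsin.ne') hK
    rw [← vp_preimage _ (det_ax hsin.ne') K]
    have heC : Equi (Vale.Agent.P248.sec 2 (ax θ φ ⁻¹' K)) := by
      rw [sec_ax K θ φ j0 j1]
      exact (inv_ax hCI θ φ).equi (body_preimage _ (ax_injective hsin.ne') (hK.sec 2)).cpt
        (quadrant hsin hQC)
    refine main_adapted hb (inv_ax hI θ φ) ((inv_ax hI θ φ).equi hb.cpt (quadrant hsin hQ))
      fun i h0 h1 => ⟨equi_transfer (pinv_ax hP θ φ) hb.cpt.isClosed h0 h1 j0 j1 heC, ?_⟩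
    exact main k _ (hb.sec i) ((inv_ax hI θ φ).sec h0 h1) ((pinv_ax hP θ φ).sec h0 h1)

end Vale.Agent.P248
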