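import Vale.Agent.P248.Step

/-!
P248: two symmetric bodies have a common pair of lines in the plane of the first two coordinates
which cuts both into quarters.
-/

open MeasureTheory Set Filter Topology Real

namespace Vale.Agent.P248

variable {k : ℕ}

/-- The oriented distance from the line at angle `θ`. -/
noncomputable def cr (θ : ℝ) : (Fin (k + 2) → ℝ) →ₗ[ℝ] ℝ :=
  cos θ • LinearMap.proj 1 - sin θ • LinearMap.proj 0

lemma cr_apply (θ : ℝ) (x : Fin (k + 2) → ℝ) : cr θ x = cos θ * x 1 - sin θ * x 0 := rfl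

/-- The sector between two angles. -/
def Sct (θ φ : ℝ) : Set (Fin (k + 2) → ℝ) := {x | 0 ≤ cr θ x ∧ cr φ x ≤ 0}

lemma cr_identity (θ φ ψ : ℝ) (x : Fin (k + 2) → ℝ) :
    sin (φ - θ) * cr ψ x = sin (ψ - θ) * cr φ x - sin (ψ - φ) * cr θ x := by
  simp only [cr_apply, sin_sub]; ring

lemma null_cr (θ : ℝ) : volume {x : Fin (k + 2) → ℝ | cr θ x = 0} = 0 := by
  refine null_ker _ fun h => ?_
  have h1 := LinearMap.congr_fun h (Pi.single 1 1)
  have h0 := LinearMap.congr_fun h (Pi.single 0 1)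
  simp [cr_apply] at h0 h1
  have := sin_sq_add_cos_sq θ
  simp [h0, h1] at this

lemma closed_Sct (θ φ : ℝ) : IsClosed (Sct θ φ : Set (Fin (k + 2) → ℝ)) := by
  exact IsClosed.inter (isClosed_le continuous_const (cr θ).continuous_on_pi)
    (isClosed_le (cr φ).continuous_on_pi continuous_const)

lemma cr_add_pi (θ : ℝ) (x : Fin (k + 2) → ℝ) : cr (θ + π) x = -cr θ x := by
  simp only [cr_apply, cos_add_pi, sin_add_pi]; ring

/-- Volume of a body in a sector. -/
noncomputable def Q (A : Set (Fin (k + 2) → ℝ)) (θ φ : ℝ) : ℝ := volume.real (A ∩ Sct θ φ)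

/-- A body symmetric about the origin. -/
structure SBody (A : Set (Fin (k + 2) → ℝ)) : Prop where
  body : Body A
  neg : ∀ x ∈ A, -x ∈ A

variable {A : Set (Fin (k + 2) → ℝ)}

lemma Q_self (A : Set (Fin (k + 2) → ℝ)) (θ : ℝ) : Q A θ θ = 0 := by
  simp [Q, measureReal_def, measure_mono_null
    (show A ∩ Sct θ θ ⊆ {x | cr θ x = 0} from fun x hx => le_antisymm hx.2.2 hx.2.1) (null_cr θ)]

lemma Q_half (hA : SBody A) (θ : ℝ) : Q A θ (θ + π) = volume.real A / 2 := by
  have h1 : A ∩ Sct θ (θ + π) = A ∩ {x | 0 ≤ cr θ x} := by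
    ext x; simp [Sct, cr_add_pi]
  have hm : MeasurableSet {x : Fin (k + 2) → ℝ | 0 ≤ cr θ x} :=
    measurableSet_le measurable_const (LinearMap.continuous_on_pi _).measurable
  have hm' : MeasurableSet {x : Fin (k + 2) → ℝ | cr θ x ≤ 0} :=
    measurableSet_le (LinearMap.continuous_on_pi _).measurable measurable_const
  have h2 : volume.real (A ∩ {x | cr θ x ≤ 0}) = volume.real (A ∩ {x | 0 ≤ cr θ x}) := by
    rw [measureReal_def, measureReal_def,
      ← (Measure.measurePreserving_neg (volume : Measure (Fin (k + 2) → ℝ))).measure_preimage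
        (hA.body.cpt.measurableSet.inter hm).nullMeasurableSet]
    congr 2
    ext x
    constructor
    · rintro ⟨h, h'⟩; exact ⟨hA.neg x h, by simpa using h'⟩
    · rintro ⟨h, h'⟩
      exact ⟨by simpa using hA.neg _ h, by simpa using h'⟩
  have h3 : volume.real (A ∩ {x | 0 ≤ cr θ x}) + volume.real (A ∩ {x | cr θ x ≤ 0}) =
      volume.real A := by
    rw [← measureReal_union₀ (hA.body.cpt.measurableSet.inter hm').nullMeasurableSet ?_
      (ne_top_of_le_ne_top hA.body.cpt.measure_ne_top (measure_mono inter_subset_left))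
      (ne_top_of_le_ne_top hA.body.cpt.measure_ne_top (measure_mono inter_subset_left))]
    · congr 1
      rw [← inter_union_distrib_left, inter_eq_left]
      exact fun x _ => le_total 0 (cr θ x)
    · exact measure_mono_null (fun x hx => le_antisymm hx.2.2 hx.1.2) (null_cr θ)
  rw [Q, h1]; linarith

lemma Q_add (hA : SBody A) {θ φ ψ : ℝ} (h1 : θ < φ) (h2 : φ < ψ) (h3 : ψ ≤ θ + π) :
    Q A θ ψ = Q A θ φ + Q A φ ψ := by
  have s1 : 0 < sin (φ - θ) := sin_pos_of_pos_of_lt_pi (by linarith) (by linarith)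
  have s2 : 0 < sin (ψ - φ) := sin_pos_of_pos_of_lt_pi (by linarith) (by linarith)
  have s3 : 0 ≤ sin (ψ - θ) := sin_nonneg_of_nonneg_of_le_pi (by linarith) (by linarith)
  have hu : (Sct θ ψ : Set (Fin (k + 2) → ℝ)) = Sct θ φ ∪ Sct φ ψ := by
    ext x
    have e := cr_identity θ φ ψ x
    constructor
    · rintro ⟨a, b⟩
      rcases le_total 0 (cr φ x) with h | h
      · exact Or.inr ⟨h, b⟩
      · exact Or.inl ⟨a, h⟩
    · rintro (⟨a, b⟩ | ⟨a, b⟩)
      · refine ⟨a, ?_⟩; by_contra hc; push Not at hc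
        nlinarith [mul_pos s1 hc, mul_nonneg s2.le a, mul_nonpos_of_nonneg_of_nonpos s3 b]
      · refine ⟨?_, b⟩; by_contra hc; push Not at hc
        nlinarith [mul_nonneg s3 a, mul_neg_of_pos_of_neg s2 hc, mul_nonpos_of_nonneg_of_nonpos s1.le b]
  have hfin : ∀ S, volume (A ∩ S) ≠ ⊤ := fun S =>
    ne_top_of_le_ne_top hA.body.cpt.measure_ne_top (measure_mono inter_subset_left)
  rw [Q, hu, inter_union_distrib_left, measureReal_union₀
    (hA.body.cpt.measurableSet.inter (closed_Sct φ ψ).measurableSet).nullMeasurableSet ?_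
    (hfin _) (hfin _)]
  · rfl
  · exact measure_mono_null (fun x hx => le_antisymm hx.1.2.2 hx.2.2.1) (null_cr φ)

lemma Q_pos (hA : SBody A) {θ φ : ℝ} (h1 : θ < φ) (h2 : φ ≤ θ + π) : 0 < Q A θ φ := by
  set U := interior A ∩ {x : Fin (k + 2) → ℝ | 0 < cr θ x ∧ cr φ x < 0}
  have hopen : IsOpen U := by
    refine isOpen_interior.inter ?_
    exact IsOpen.inter (isOpen_lt continuous_const (cr θ).continuous_on_pi)
      (isOpen_lt (cr φ).continuous_on_pi continuous_const)
  have hne : U.Nonempty := by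
    set μ := (θ + φ) / 2
    set v : Fin (k + 2) → ℝ := fun i => if i = 0 then cos μ else if i = 1 then sin μ else 0
    have hc : ContinuousAt (fun t : ℝ => t • v) 0 := by fun_prop
    have := hc.preimage_mem_nhds (by
      rw [zero_smul]; exact isOpen_interior.mem_nhds hA.body.zero)
    obtain ⟨ε, hε, hb⟩ := Metric.mem_nhds_iff.mp this
    refine ⟨(ε / 2) • v, hb (by simp [abs_of_pos hε, hε]), ?_, ?_⟩
    · have : 0 < sin (μ - θ) :=
        sin_pos_of_pos_of_lt_pi (by simp only [μ]; linarith)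
          (by simp only [μ]; linarith [pi_pos])
      simp [cr_apply, v]
      rw [sin_sub] at this
      nlinarith
    · have : 0 < sin (φ - μ) :=
        sin_pos_of_pos_of_lt_pi (by simp only [μ]; linarith)
          (by simp only [μ]; linarith [pi_pos])
      simp [cr_apply, v]
      rw [sin_sub] at this
      nlinarith
  refine lt_of_lt_of_le (ENNReal.toReal_pos (hopen.measure_pos volume hne).ne' ?_)
    (measureReal_mono (fun x hx => ⟨interior_subset hx.1, hx.2.1.le, hx.2.2.le⟩)
      (ne_top_of_le_ne_top hA.body.cpt.measure_ne_top (measure_mono inter_subset_left)))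
  exact ne_top_of_le_ne_top hA.body.cpt.measure_ne_top
    (measure_mono fun x hx => interior_subset hx.1)

lemma Q_strictMono (hA : SBody A) {θ φ ψ : ℝ} (h1 : θ ≤ φ) (h2 : φ < ψ) (h3 : ψ ≤ θ + π) :
    Q A θ φ < Q A θ ψ := by
  rcases eq_or_lt_of_le h1 with rfl | h1
  · rw [Q_self]; exact Q_pos hA h2 h3
  · rw [Q_add hA h1 h2 h3]; linarith [Q_pos hA h2 (show ψ ≤ φ + π by linarith)]

lemma continuous_Q (hA : SBody A) : Continuous fun p : ℝ × ℝ => Q A p.1 p.2 := by
  have he : ∀ p : ℝ × ℝ, Q A p.1 p.2 =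
      ∫ x in A, (Sct p.1 p.2).indicator (fun _ => (1 : ℝ)) x := by
    intro p
    rw [integral_indicator_const _ (closed_Sct _ _).measurableSet, smul_eq_mul, mul_one,
      measureReal_restrict_apply (closed_Sct _ _).measurableSet, inter_comm]
    rfl
  simp_rw [he]
  refine continuous_iff_continuousAt.mpr fun p₀ => ?_
  have : IsFiniteMeasure ((volume : Measure (Fin (k + 2) → ℝ)).restrict A) :=
    isFiniteMeasure_restrict.mpr hA.body.cpt.measure_ne_top
  refine continuousAt_of_dominated (bound := fun _ => (1 : ℝ)) ?_ ?_ (integrable_const _) ?_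
  · exact Eventually.of_forall fun p =>
      (measurable_const.indicator (closed_Sct _ _).measurableSet).aestronglyMeasurable
  · refine Eventually.of_forall fun p => Eventually.of_forall fun x => ?_
    by_cases hx : x ∈ Sct p.1 p.2 <;> simp [hx]
  · have h0 : ∀ᵐ x ∂volume.restrict A, cr p₀.1 x ≠ 0 ∧ cr p₀.2 x ≠ 0 := by
      refine ae_restrict_of_ae ?_
      rw [ae_iff]
      refine measure_mono_null (fun x hx => ?_)
        (measure_union_null (null_cr (k := k) p₀.1) (null_cr p₀.2))
      simp only [ne_eq, not_and_or, not_not] at hx ⊢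
      exact hx
    filter_upwards [h0] with x ⟨hx1, hx2⟩
    have hc1 : ContinuousAt (fun p : ℝ × ℝ => cr p.1 x) p₀ := by
      simp only [cr_apply]; fun_prop
    have hc2 : ContinuousAt (fun p : ℝ × ℝ => cr p.2 x) p₀ := by
      simp only [cr_apply]; fun_prop
    have e1 : ∀ᶠ p in 𝓝 p₀, (0 ≤ cr p.1 x ↔ 0 ≤ cr p₀.1 x) := by
      rcases lt_or_gt_of_ne hx1 with h | h
      · filter_upwards [hc1.eventually_lt_const h] with p hp
        exact iff_of_false (not_le.mpr hp) (not_le.mpr h)
      · filter_upwards [hc1.eventually_const_lt h] with p hp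
        exact iff_of_true hp.le h.le
    have e2 : ∀ᶠ p in 𝓝 p₀, (cr p.2 x ≤ 0 ↔ cr p₀.2 x ≤ 0) := by
      rcases lt_or_gt_of_ne hx2 with h | h
      · filter_upwards [hc2.eventually_lt_const h] with p hp
        exact iff_of_true hp.le h.le
      · filter_upwards [hc2.eventually_const_lt h] with p hp
        exact iff_of_false (not_le.mpr hp) (not_le.mpr h)
    refine (continuousAt_const (y := (Sct p₀.1 p₀.2).indicator (fun _ => (1 : ℝ)) x)).congr ?_
    filter_upwards [e1, e2] with p h1 h2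
    classical
    have : (x ∈ Sct p.1 p.2) ↔ x ∈ Sct p₀.1 p₀.2 := by simp [Sct, h1, h2]
    simp only [Set.indicator_apply, this]

lemma continuous_Q_right (hA : SBody A) (θ : ℝ) : Continuous fun φ : ℝ => Q A θ φ :=
  Continuous.comp (g := fun p : ℝ × ℝ => Q A p.1 p.2) (f := fun φ : ℝ => (θ, φ))
    (continuous_Q hA) (continuous_const.prodMk continuous_id')

lemma continuous_Q_left (hA : SBody A) (φ : ℝ) : Continuous fun θ : ℝ => Q A θ φ :=
  Continuous.comp (g := fun p : ℝ × ℝ => Q A p.1 p.2) (f := fun θ : ℝ => (θ, φ))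
    (continuous_Q hA) (continuous_id'.prodMk continuous_const)

/-- The quartering angle. -/
lemma exists_quarter (hA : SBody A) : ∃ g : ℝ → ℝ, Continuous g ∧
    (∀ θ, g θ ∈ Ioo θ (θ + π)) ∧ (∀ θ, Q A θ (g θ) = volume.real A / 4) ∧
    ∀ θ φ, φ ∈ Icc θ (θ + π) → Q A θ φ = volume.real A / 4 → φ = g θ := by
  have hV := hA.body.vol_pos
  have hex : ∀ θ, ∃ φ ∈ Ioo θ (θ + π), Q A θ φ = volume.real A / 4 := by
    intro θ
    have := intermediate_value_Ioo (f := fun φ => Q A θ φ) (by linarith [pi_pos] : θ ≤ θ + π)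
      (continuous_Q_right hA θ).continuousOn
      (show volume.real A / 4 ∈ Ioo (Q A θ θ) (Q A θ (θ + π)) by
        rw [Q_self, Q_half hA]; constructor <;> linarith)
    exact this
  choose g hg hQ using hex
  have huniq : ∀ θ φ, φ ∈ Icc θ (θ + π) → Q A θ φ = volume.real A / 4 → φ = g θ := by
    intro θ φ hφ h
    rcases lt_trichotomy φ (g θ) with h' | h' | h'
    · linarith [Q_strictMono hA hφ.1 h' (hg θ).2.le, hQ θ]
    · exact h'
    · linarith [Q_strictMono hA (hg θ).1.le h' hφ.2, hQ θ]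
  have hgc : Continuous g := by
    refine continuous_iff_continuousAt.mpr fun θ₀ => ?_
    rw [ContinuousAt, Metric.tendsto_nhds]
    intro ε hε
    obtain ⟨δ, hδ, hδε, hl, hr⟩ : ∃ δ > 0, δ ≤ ε ∧ θ₀ < g θ₀ - δ ∧ g θ₀ + δ < θ₀ + π := by
      refine ⟨min ε (min (g θ₀ - θ₀) (θ₀ + π - g θ₀) / 2), ?_, min_le_left _ _, ?_, ?_⟩
      · have := (hg θ₀).1; have := (hg θ₀).2
        exact lt_min hε (div_pos (lt_min (by linarith) (by linarith)) two_pos)
      all_goals
        have := (hg θ₀).1; have := (hg θ₀).2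
        have := min_le_right ε (min (g θ₀ - θ₀) (θ₀ + π - g θ₀) / 2)
        have := min_le_left (g θ₀ - θ₀) (θ₀ + π - g θ₀)
        have := min_le_right (g θ₀ - θ₀) (θ₀ + π - g θ₀)
        linarith
    have a1 : Q A θ₀ (g θ₀ - δ) < volume.real A / 4 := by
      rw [← hQ θ₀]; exact Q_strictMono hA hl.le (by linarith) (hg θ₀).2.le
    have a2 : volume.real A / 4 < Q A θ₀ (g θ₀ + δ) := by
      rw [← hQ θ₀]; exact Q_strictMono hA (hg θ₀).1.le (by linarith) hr.le
    have c : ∀ c, ContinuousAt (fun θ => Q A θ c) θ₀ := fun c =>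
      (continuous_Q_left hA c).continuousAt
    filter_upwards [(c _).eventually_lt_const a1, (c _).eventually_const_lt a2,
      eventually_lt_nhds hl, eventually_gt_nhds (show g θ₀ + δ - π < θ₀ by linarith)]
      with θ b1 b2 b3 b4
    rw [Real.dist_eq, abs_lt]
    constructor
    · by_contra hc; push Not at hc
      have : g θ ≤ g θ₀ - δ := by linarith
      rcases eq_or_lt_of_le this with h | h
      · rw [← h, hQ] at b1; linarith
      · linarith [Q_strictMono hA (hg θ).1.le h (show g θ₀ - δ ≤ θ + π by linarith), hQ θ]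
    · by_contra hc; push Not at hc
      have : g θ₀ + δ ≤ g θ := by linarith
      rcases eq_or_lt_of_le this with h | h
      · rw [h, hQ] at b2; linarith
      · linarith [Q_strictMono hA (show θ ≤ g θ₀ + δ by linarith) h (hg θ).2.le, hQ θ]
  exact ⟨g, hgc, hg, hQ, huniq⟩

/-- Two bodies are quartered by the same pair of lines. -/
theorem exists_common {A : Set (Fin (k + 2) → ℝ)} {j : ℕ} {C : Set (Fin (j + 2) → ℝ)}
    (hA : SBody A) (hC : SBody C) : ∃ θ φ, θ < φ ∧ φ < θ + π ∧
      Q A θ φ = volume.real A / 4 ∧ Q C θ φ = volume.real C / 4 := by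
  obtain ⟨g, hgc, hg, hQ, huniq⟩ := exists_quarter hA
  have hgg : ∀ θ, g (g θ) = θ + π := by
    intro θ
    refine (huniq _ _ ⟨(hg θ).2.le, by linarith [(hg θ).1]⟩ ?_).symm
    have := Q_add hA (hg θ).1 (hg θ).2 le_rfl
    rw [Q_half hA, hQ] at this
    linarith
  set D := fun θ => Q C θ (g θ) - volume.real C / 4
  have hD : Continuous D := (Continuous.comp (g := fun p : ℝ × ℝ => Q C p.1 p.2)
    (f := fun t : ℝ => (t, g t)) (continuous_Q hC) (continuous_id'.prodMk hgc)).sub continuous_const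
  have hflip : D (g 0) = -D 0 := by
    have := Q_add hC (hg 0).1 (hg 0).2 le_rfl
    rw [Q_half hC] at this
    simp only [D, hgg]
    linarith
  obtain ⟨θ, -, hθ⟩ := intermediate_value_uIcc (a := (0 : ℝ)) (b := g 0) hD.continuousOn
    (show (0 : ℝ) ∈ uIcc (D 0) (D (g 0)) by
      rw [hflip]; rcases le_total 0 (D 0) with h | h
      · exact mem_uIcc.mpr (Or.inr ⟨by linarith, h⟩)
      · exact mem_uIcc.mpr (Or.inl ⟨h, by linarith⟩))
  exact ⟨θ, g θ, (hg θ).1, (hg θ).2, hQ θ, by simp only [D] at hθ; linarith⟩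

end Vale.Agent.P248
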