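import Vale.Agent.P248.General
import Vale.Agent.P227.Basic

/-!
P248: the bound about every interior point, and the comparison with the simplex.
-/

open MeasureTheory Set Filter Topology
open scoped Matrix Pointwise

namespace Vale.Agent.P248

open Vale.Agent.P227 (h le_h h_le exists_h)

variable {n : ℕ}

lemma support_continuous {K : Set (Fin n → ℝ)} (hK : IsCompact K) : Continuous (h K) :=
  hK.continuous_sSup (f := fun u x => x ⬝ᵥ u)
    (show Continuous fun p : (Fin n → ℝ) × (Fin n → ℝ) => ∑ i, p.2 i * p.1 i from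
      continuous_finsetSum _ fun i _ =>
        ((continuous_apply i).comp continuous_snd).mul ((continuous_apply i).comp continuous_fst))

lemma support_smul {K : Set (Fin n → ℝ)} (hK : IsCompact K) (hne : K.Nonempty) {c : ℝ} (hc : 0 ≤ c)
    (y : Fin n → ℝ) : h K (c • y) = c * h K y := by
  obtain ⟨x, hx, e⟩ := exists_h hK hne y
  refine le_antisymm (h_le hne fun u hu => ?_) ?_
  · rw [dotProduct_smul, smul_eq_mul]; exact mul_le_mul_of_nonneg_left (le_h hK hu y) hc
  · rw [← e, ← smul_eq_mul, ← dotProduct_smul]; exact le_h hK hx _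

/-- The body seen from `p`. -/
def seen (p : Fin n → ℝ) (K : Set (Fin n → ℝ)) : Set (Fin n → ℝ) := (fun u => u + p) ⁻¹' K

lemma body_seen {K : Set (Fin n → ℝ)} (hc : IsCompact K) (hv : Convex ℝ K) {p : Fin n → ℝ}
    (hp : p ∈ interior K) : Body (seen p K) := by
  refine ⟨(Homeomorph.addRight p).isCompact_preimage.mpr hc, ?_, ?_⟩
  · exact hv.translate_preimage_left p
  · exact preimage_interior_subset_interior_preimage (continuous_id.add continuous_const)
      (by simpa using hp)

lemma pol_seen {K : Set (Fin n → ℝ)} (hc : IsCompact K) (hne : K.Nonempty) (p : Fin n → ℝ) :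
    pol (seen p K) = {y | h K y - p ⬝ᵥ y ≤ 1} := by
  ext y
  constructor
  · intro hy
    rw [mem_ofPred_eq, sub_le_iff_le_add]
    refine h_le hne fun x hx => ?_
    have := hy (x - p) (by show x - p + p ∈ K; rwa [sub_add_cancel])
    rw [sub_dotProduct] at this
    linarith
  · intro hy x hx
    have h1 := le_h hc hx y
    rw [add_dotProduct] at h1
    rw [mem_ofPred_eq] at hy
    linarith

/-- Reflection in all the hyperplanes of `J`. -/
def allFlip (J : Finset (Fin n)) : (Fin n → ℝ) → (Fin n → ℝ) := sgn fun i => !decide (i ∈ J)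

lemma allFlip_apply (J : Finset (Fin n)) (x : Fin n → ℝ) (i : Fin n) :
    allFlip J x i = if i ∈ J then -x i else x i := by
  by_cases h : i ∈ J <;> simp [allFlip, sgn, sg, h]

lemma allFlip_allFlip (J : Finset (Fin n)) (x : Fin n → ℝ) : allFlip J (allFlip J x) = x := by
  funext i
  simp only [allFlip_apply]
  split_ifs <;> simp

lemma allFlip_dot (J : Finset (Fin n)) (x y : Fin n → ℝ) :
    allFlip J x ⬝ᵥ y = x ⬝ᵥ allFlip J y := by
  refine Finset.sum_congr rfl fun i _ => ?_
  simp only [allFlip_apply]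
  split_ifs <;> ring

lemma Sy.allFlip_mem {K : Set (Fin n → ℝ)} {J : Finset (Fin n)} (hS : Sy K J) {x : Fin n → ℝ}
    (hx : x ∈ K) : allFlip J x ∈ K := by
  classical
  suffices ∀ T ⊆ J, allFlip T x ∈ K from this J subset_rfl
  intro T
  induction T using Finset.induction with
  | empty =>
    intro _
    convert hx using 1
    funext i
    simp [allFlip_apply]
  | @insert a T ha ih =>
    intro hT
    have h1 := hS _ (ih fun k hk => hT (Finset.mem_insert_of_mem hk)) a
      (hT (Finset.mem_insert_self _ _))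
    convert h1 using 1
    funext i
    by_cases hi : i = a
    · subst hi; simp [allFlip_apply, rf, ha]
    · simp [allFlip_apply, rf, hi]

lemma continuous_allFlip (J : Finset (Fin n)) : Continuous (allFlip J) :=
  continuous_pi fun i => continuous_const.mul (continuous_apply i)

/-- The volume product about an interior point. -/
theorem general_bound {K : Set (Fin n → ℝ)} {J : Finset (Fin n)} (hc : IsCompact K)
    (hv : Convex ℝ K) (hS : Sy K J) {z : Fin n → ℝ} (hz : z ∈ interior K) :
    bd n J.card ≤ volume.real K * volume.real (pol (seen z K)) := by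
  classical
  have hne : K.Nonempty := ⟨z, interior_subset hz⟩
  set w := allFlip J z
  have hw : w ∈ interior K := by
    have hsub : allFlip J ⁻¹' K ⊆ K := fun x hx => by
      have := hS.allFlip_mem (show allFlip J x ∈ K from hx)
      rwa [allFlip_allFlip] at this
    refine interior_mono hsub (preimage_interior_subset_interior_preimage (continuous_allFlip J) ?_)
    show allFlip J (allFlip J z) ∈ interior K
    rwa [allFlip_allFlip]
  set p : Fin n → ℝ := (1 / 2 : ℝ) • z + (1 / 2 : ℝ) • w
  have hp : p ∈ interior K :=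
    hv.interior hz hw (by norm_num) (by norm_num) (by norm_num)
  have hSp : Sy (seen p K) J := by
    intro u hu i hi
    have := hS _ hu i hi
    show rf i u + p ∈ K
    convert this using 1
    have p0 : p i = 0 := by simp [p, w, allFlip_apply, hi]
    funext k
    by_cases hk : k = i
    · subst hk; simp [rf, p0]
    · simp [rf, Function.update_of_ne hk]
  have hcen := general_center n _ J (body_seen hc hv hp) hSp
  rw [vp, measureReal_def (s := seen p K), seen, measure_preimage_add_right] at hcen
  have hvol : volume (pol (seen p K)) ≤ volume (pol (seen z K)) := by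
    rw [pol_seen hc hne, pol_seen hc hne]
    have ez : ∀ y, h K y - p ⬝ᵥ y - (z - p) ⬝ᵥ y = h K y - z ⬝ᵥ y := fun y => by
      rw [sub_dotProduct]; ring
    have ew : ∀ y, h K y - p ⬝ᵥ y + (z - p) ⬝ᵥ y = h K y - w ⬝ᵥ y := fun y => by
      simp only [p, sub_dotProduct, add_dotProduct, smul_dotProduct, smul_eq_mul]; ring
    have key := tilt_vol (g := fun y => h K y - p ⬝ᵥ y) (d := fun y => (z - p) ⬝ᵥ y)
      ((support_continuous hc).sub (continuous_finsetSum _ fun i _ =>
        continuous_const.mul (continuous_apply i)))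
      (continuous_finsetSum _ fun i _ => continuous_const.mul (continuous_apply i))
      (fun y => ⟨by rw [ez, sub_nonneg]; exact le_h hc (interior_subset hz) y,
        by rw [ew, sub_nonneg]; exact le_h hc (interior_subset hw) y⟩)
      (fun c hc' y => by
        simp only [support_smul hc hne hc', dotProduct_smul, smul_eq_mul]; ring)
      (fun c hc' y => by simp only [dotProduct_smul, smul_eq_mul]) ?_
    · simpa only [ez] using key
    · simp only [ez, ew]
      have hh : ∀ y, h K (allFlip J y) = h K y := by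
        have le : ∀ v, h K (allFlip J v) ≤ h K v := fun v => h_le hne fun x hx => by
          rw [← allFlip_dot]; exact le_h hc (hS.allFlip_mem hx) v
        intro y
        refine le_antisymm (le y) ?_
        have := le (allFlip J y)
        rwa [allFlip_allFlip] at this
      have e : {y | h K y - w ⬝ᵥ y ≤ 1} = allFlip J ⁻¹' {y | h K y - z ⬝ᵥ y ≤ 1} := by
        ext y
        simp only [mem_preimage, mem_ofPred_eq, hh, w, allFlip_dot]
      rw [e]
      exact (mp_sgn _).measure_preimage (IsClosed.measurableSet (isClosed_le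
        ((support_continuous hc).sub (continuous_finsetSum _ fun i _ =>
          continuous_const.mul (continuous_apply i))) continuous_const)).nullMeasurableSet
  refine hcen.trans (mul_le_mul_of_nonneg_left ?_ measureReal_nonneg)
  exact ENNReal.toReal_mono (body_seen hc hv hz).pol_cpt.measure_ne_top hvol

/-- The bound beats the simplex once the dimension is large. -/
lemma bd_beats (k : ℕ) : ∃ N : ℕ, ∀ n ≥ N, ∀ j : ℕ, n ≤ j + k →
    ((n : ℝ) + 1) ^ (n + 1) / (Nat.factorial n : ℝ) ^ 2 < bd n j := by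
  have hq : Real.exp 1 / 4 < 1 := by
    rw [div_lt_one (by norm_num)]; linarith [Real.exp_one_lt_three]
  have ht := tendsto_pow_const_mul_const_pow_of_abs_lt_one (k + 1) (r := Real.exp 1 / 4)
    (by rw [abs_of_pos (by positivity)]; exact hq)
  have hpos : (0 : ℝ) < (Real.exp 1)⁻¹ / 2 ^ (k + 1) := by positivity
  obtain ⟨N, hN⟩ := eventually_atTop.mp (ht.eventually (gt_mem_nhds hpos))
  refine ⟨max N 1, fun m hm j hj => ?_⟩
  have hm1 : 1 ≤ m := le_of_max_le_right hm
  have h1 := hN m (le_of_max_le_left hm)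
  simp only [bd]
  refine div_lt_div_of_pos_right ?_ (by positivity)
  have hfac : (Nat.factorial m : ℝ) ≤ (Nat.factorial j : ℝ) * (m : ℝ) ^ k := by
    have : Nat.factorial m ≤ Nat.factorial j * m ^ k := by
      rcases le_or_gt m j with h | h
      · calc Nat.factorial m ≤ Nat.factorial j := Nat.factorial_le h
          _ ≤ _ := Nat.le_mul_of_pos_right _ (pow_pos (by omega) _)
      · calc Nat.factorial m = Nat.factorial j * m.descFactorial (m - j) := by
              have := Nat.factorial_mul_descFactorial (n := m) (k := m - j) (Nat.sub_le _ _)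
              rw [show m - (m - j) = j by omega] at this
              exact this.symm
          _ ≤ Nat.factorial j * m ^ (m - j) :=
              Nat.mul_le_mul_left _ (Nat.descFactorial_le_pow _ _)
          _ ≤ _ := Nat.mul_le_mul_left _ (Nat.pow_le_pow_right (by omega) (by omega))
    exact_mod_cast this
  have hst : ((m : ℝ) + 1) ^ m ≤ (Nat.factorial m : ℝ) * (Real.exp 1 * Real.exp 1 ^ m) := by
    have := Real.pow_div_factorial_le_exp ((m : ℝ) + 1) (by positivity) m
    rw [div_le_iff₀ (by positivity), mul_comm] at this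
    rwa [Real.exp_one_pow, ← Real.exp_add, add_comm (1 : ℝ)]
  have hk : ((m : ℝ) + 1) * (m : ℝ) ^ k ≤ 2 ^ (k + 1) * (m : ℝ) ^ (k + 1) := by
    have hmr : (1 : ℝ) ≤ m := by exact_mod_cast hm1
    have h2 : (2 : ℝ) ≤ 2 ^ (k + 1) := le_self_pow₀ (by norm_num) (by omega)
    rw [pow_succ (m : ℝ)]
    nlinarith [pow_nonneg (by linarith : (0 : ℝ) ≤ (m : ℝ)) k,
      mul_nonneg (pow_nonneg (by linarith : (0 : ℝ) ≤ (m : ℝ)) k) (by linarith : (0 : ℝ) ≤ (m : ℝ))]
  rw [div_pow, mul_div_assoc', div_lt_iff₀ (by positivity)] at h1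
  rw [pow_succ]
  calc ((m : ℝ) + 1) ^ m * ((m : ℝ) + 1)
      ≤ (Nat.factorial m : ℝ) * (Real.exp 1 * Real.exp 1 ^ m) * ((m : ℝ) + 1) := by gcongr
    _ ≤ (Nat.factorial j : ℝ) * (m : ℝ) ^ k * (Real.exp 1 * Real.exp 1 ^ m) * ((m : ℝ) + 1) := by
        gcongr
    _ = (Nat.factorial j : ℝ) * Real.exp 1 * Real.exp 1 ^ m * (((m : ℝ) + 1) * (m : ℝ) ^ k) := by
        ring
    _ ≤ (Nat.factorial j : ℝ) * Real.exp 1 * Real.exp 1 ^ m * (2 ^ (k + 1) * (m : ℝ) ^ (k + 1)) := by
        gcongr
    _ = (Nat.factorial j : ℝ) * Real.exp 1 * 2 ^ (k + 1) * ((m : ℝ) ^ (k + 1) * Real.exp 1 ^ m) := by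
        ring
    _ < (Nat.factorial j : ℝ) * Real.exp 1 * 2 ^ (k + 1) *
          ((Real.exp 1)⁻¹ / 2 ^ (k + 1) * (4 : ℝ) ^ m) := by gcongr
    _ = (4 : ℝ) ^ m * (Nat.factorial j : ℝ) := by field_simp

/-- One free coordinate: the bound beats the simplex from dimension nine on. -/
lemma bd_beats_one {m j : ℕ} (hm : 9 ≤ m) (hj : m ≤ j + 1) :
    ((m : ℝ) + 1) ^ (m + 1) / (Nat.factorial m : ℝ) ^ 2 < bd m j := by
  simp only [bd]
  refine div_lt_div_of_pos_right ?_ (by positivity)
  have main : ∀ i : ℕ, ((i : ℝ) + 10) ^ (i + 10) < (4 : ℝ) ^ (i + 9) * (Nat.factorial (i + 8) : ℝ) := by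
    intro i
    induction i with
    | zero => norm_num [Nat.factorial]
    | succ i ih =>
      have he : (((i : ℝ) + 11) / ((i : ℝ) + 10)) ^ (i + 10) ≤ 3 := by
        calc (((i : ℝ) + 11) / ((i : ℝ) + 10)) ^ (i + 10)
            ≤ (Real.exp (1 / ((i : ℝ) + 10))) ^ (i + 10) := by
              gcongr
              refine le_trans (le_of_eq ?_) (Real.add_one_le_exp _)
              field_simp; ring
          _ = Real.exp 1 := by
              rw [← Real.exp_nat_mul]; congr 1; push_cast; field_simp
          _ ≤ 3 := Real.exp_one_lt_three.le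
      rw [div_pow, div_le_iff₀ (by positivity)] at he
      have e1 : (((i + 1 : ℕ) : ℝ) + 10) = (i : ℝ) + 11 := by push_cast; ring
      have e2 : (4 : ℝ) ^ (i + 1 + 9) * (Nat.factorial (i + 1 + 8) : ℝ) =
          4 * ((i : ℝ) + 9) * ((4 : ℝ) ^ (i + 9) * (Nat.factorial (i + 8) : ℝ)) := by
        rw [show i + 1 + 9 = i + 9 + 1 by ring, show i + 1 + 8 = i + 8 + 1 by ring,
          Nat.factorial_succ, pow_succ]
        push_cast; ring
      rw [e1, e2, show i + 1 + 10 = i + 10 + 1 by ring, pow_succ]
      calc ((i : ℝ) + 11) ^ (i + 10) * ((i : ℝ) + 11)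
          ≤ 3 * ((i : ℝ) + 10) ^ (i + 10) * ((i : ℝ) + 11) := by gcongr
        _ < 3 * ((4 : ℝ) ^ (i + 9) * (Nat.factorial (i + 8) : ℝ)) * ((i : ℝ) + 11) := by gcongr
        _ ≤ 4 * ((i : ℝ) + 9) * ((4 : ℝ) ^ (i + 9) * (Nat.factorial (i + 8) : ℝ)) := by
            have : (0 : ℝ) ≤ (4 : ℝ) ^ (i + 9) * (Nat.factorial (i + 8) : ℝ) := by positivity
            have : (0 : ℝ) ≤ i := Nat.cast_nonneg i
            nlinarith
  obtain ⟨i, rfl⟩ : ∃ i, m = i + 9 := ⟨m - 9, by omega⟩
  have h := main i
  have hf : (Nat.factorial (i + 8) : ℝ) ≤ (Nat.factorial j : ℝ) := by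
    exact_mod_cast Nat.factorial_le (by omega : i + 8 ≤ j)
  push_cast
  rw [show (i : ℝ) + 9 + 1 = (i : ℝ) + 10 by ring, show i + 9 + 1 = i + 10 by ring]
  exact h.trans_le (mul_le_mul_of_nonneg_left hf (by positivity))

end Vale.Agent.P248
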