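import Vale.Agent.P248.Basic

/-!
P248: if the orthants cut a body and its coordinate sections equally, the volume product is bounded
below by those of the sections.
-/

open MeasureTheory Set Module
open scoped Matrix Pointwise

namespace Vale.Agent.P248

variable {n : ℕ}

lemma measurable_insertNth (i : Fin (n + 1)) :
    Measurable fun p : ℝ × (Fin n → ℝ) => i.insertNth (α := fun _ => ℝ) p.1 p.2 :=
  ((volume_preserving_piFinSuccAbove (fun _ : Fin (n + 1) => ℝ) i).symm).measurable

lemma continuous_insertNth (i : Fin (n + 1)) (u : ℝ) :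
    Continuous fun q : Fin n → ℝ => i.insertNth (α := fun _ => ℝ) u q :=
  continuous_pi fun j => by
    rcases i.eq_self_or_eq_succAbove j with rfl | ⟨k, rfl⟩
    · simpa using continuous_const
    · simpa using continuous_apply k

/-- The cone over a facet with apex `x`. -/
def cone (i : Fin (n + 1)) (x : Fin (n + 1) → ℝ) (Q : Set (Fin n → ℝ)) :
    Set (Fin (n + 1) → ℝ) :=
  {z | z i / x i ∈ Ico (0 : ℝ) 1 ∧
    (1 - z i / x i)⁻¹ • (i.removeNth z - (z i / x i) • i.removeNth x) ∈ Q}

lemma measurableSet_cone (i : Fin (n + 1)) (x : Fin (n + 1) → ℝ) {Q : Set (Fin n → ℝ)}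
    (hQ : MeasurableSet Q) : MeasurableSet (cone i x Q) := by
  refine (measurableSet_Ico.preimage (by fun_prop : Measurable fun z : Fin (n + 1) → ℝ => z i / x i)).inter
    (hQ.preimage (f := fun z : Fin (n + 1) → ℝ =>
      (1 - z i / x i)⁻¹ • (i.removeNth z - (z i / x i) • i.removeNth x)) ?_)
  unfold Fin.removeNth
  fun_prop

lemma vol_cone (i : Fin (n + 1)) (x : Fin (n + 1) → ℝ) (hx : x i ≠ 0) {Q : Set (Fin n → ℝ)}
    (hQ : MeasurableSet Q) :
    volume (cone i x Q) = ENNReal.ofReal (|x i| / (n + 1)) * volume Q := by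
  set g : ℝ → ℝ := (Ico (0 : ℝ) 1).indicator fun τ => (1 - τ) ^ n
  have hs : ∀ u, volume {q | i.insertNth u q ∈ cone i x Q} =
      ENNReal.ofReal (g (u / x i)) * volume Q := by
    intro u
    by_cases hu : u / x i ∈ Ico (0 : ℝ) 1
    · have h1 : 0 < 1 - u / x i := by linarith [hu.2]
      have : {q | i.insertNth u q ∈ cone i x Q} =
          (fun q => q + -((u / x i) • i.removeNth x)) ⁻¹' ((fun q => (1 - u / x i)⁻¹ • q) ⁻¹' Q) := by
        ext q; simp [cone, hu.1, hu.2, sub_eq_add_neg]
      rw [this, measure_preimage_add_right, Measure.addHaar_preimage_smul _ (inv_ne_zero h1.ne')]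
      simp only [finrank_fin_fun, inv_pow, inv_inv, g, Set.indicator_of_mem hu]
      rw [abs_of_pos (pow_pos h1 n)]
    · have : {q | i.insertNth u q ∈ cone i x Q} = ∅ := by
        ext q; simp [cone]; intro a b; exact absurd ⟨a, b⟩ hu
      simp [this, g, Set.indicator_of_notMem hu]
  rw [vol_slice i (measurableSet_cone i x hQ)]
  simp_rw [hs]
  have hg : Measurable g := (by fun_prop : Measurable fun τ : ℝ => (1 - τ) ^ n).indicator
    measurableSet_Ico
  have hcm : Measurable fun u => ENNReal.ofReal (g (u / x i)) :=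
    (hg.comp (by fun_prop : Measurable fun u : ℝ => u / x i)).ennreal_ofReal
  rw [lintegral_mul_const _ hcm]
  congr 1
  have hmap := lintegral_map (μ := volume) (f := fun τ => ENNReal.ofReal (g τ))
    (g := fun u : ℝ => (x i)⁻¹ * u) hg.ennreal_ofReal (by fun_prop)
  rw [Real.map_volume_mul_left (inv_ne_zero hx), lintegral_smul_measure, inv_inv] at hmap
  simp only [div_eq_inv_mul]
  rw [← hmap]
  have hint : ∫⁻ τ, ENNReal.ofReal (g τ) = ENNReal.ofReal (1 / (n + 1)) := by
    have hI : IntegrableOn (fun τ : ℝ => (1 - τ) ^ n) (Ico 0 1) :=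
      (Continuous.integrableOn_Icc (by fun_prop)).mono_set Ico_subset_Icc_self
    rw [← ofReal_integral_eq_lintegral_ofReal (hI.integrable_indicator measurableSet_Ico)
      (Filter.Eventually.of_forall fun τ => Set.indicator_nonneg
        (fun t ht => pow_nonneg (by linarith [ht.2]) n) τ)]
    congr 1
    rw [integral_indicator measurableSet_Ico, integral_Ico_eq_integral_Ioc,
      ← intervalIntegral.integral_of_le zero_le_one,
      intervalIntegral.integral_comp_sub_left (fun t => t ^ n) 1]
    simp
  rw [hint, smul_eq_mul, ← ENNReal.ofReal_mul (abs_nonneg _)]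
  ring_nf

lemma mem_cone {i : Fin (n + 1)} {x z : Fin (n + 1) → ℝ} {Q : Set (Fin n → ℝ)}
    (hx : x i ≠ 0) (h : z ∈ cone i x Q) :
    ∃ t ∈ Ico (0 : ℝ) 1, ∃ q ∈ Q, t = z i / x i ∧
      z = (1 - t) • i.insertNth (α := fun _ => ℝ) 0 q + t • x := by
  refine ⟨_, h.1, _, h.2, rfl, funext fun j => ?_⟩
  have h1 : (1 : ℝ) - z i / x i ≠ 0 := by linarith [h.1.2]
  rcases i.eq_self_or_eq_succAbove j with rfl | ⟨k, rfl⟩
  · simp [hx]
  · simp [Fin.removeNth]
    rw [← mul_assoc, mul_inv_cancel₀ h1]
    ring

/-- The cone vector lies in the polar. -/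
lemma cone_sum_le {K : Set (Fin (n + 1) → ℝ)} (hK : IsCompact K) (hc : Convex ℝ K)
    (s : Fin (n + 1) → Bool) {x : Fin (n + 1) → ℝ} (hx : x ∈ K ∩ orth s) :
    ∑ i, |x i| / (n + 1) * volume.real (sec i K ∩ orth (fun k => s (i.succAbove k))) ≤
      volume.real (K ∩ orth s) := by
  classical
  let Q := fun i : Fin (n + 1) => sec i K ∩ orth (fun k => s (i.succAbove k))
  have hQ : ∀ i, MeasurableSet (Q i) := fun i =>
    ((hK.isClosed.preimage (continuous_insertNth i 0)).inter (closed_orth _)).measurableSet
  set S := Finset.univ.filter fun i => x i ≠ 0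
  have hsub : ∀ i ∈ S, cone i x (Q i) ⊆ K ∩ orth s := by
    intro i hi z hz
    obtain ⟨t, ht, q, hq, -, rfl⟩ := mem_cone (Finset.mem_filter.mp hi).2 hz
    refine ⟨hc hq.1 hx.1 (by linarith [ht.2]) ht.1 (by ring), fun j => ?_⟩
    have := mul_nonneg ht.1 (hx.2 j)
    rcases i.eq_self_or_eq_succAbove j with rfl | ⟨k, rfl⟩
    · simp; linarith
    · have := mul_nonneg (sub_nonneg.mpr ht.2.le) (hq.2 k)
      simp only [Pi.add_apply, Pi.smul_apply, Fin.insertNth_apply_succAbove, smul_eq_mul]
      linarith
  have hd : (S : Set (Fin (n + 1))).Pairwise fun i j => AEDisjoint volume (cone i x (Q i)) (cone j x (Q j)) := by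
    intro i hi j hj hij
    have hxi := (Finset.mem_filter.mp hi).2
    have hxj := (Finset.mem_filter.mp hj).2
    refine measure_mono_null ?_ (null_ker (x j • LinearMap.proj i - x i • LinearMap.proj j) ?_)
    · rintro z ⟨hz1, hz2⟩
      obtain ⟨t, ht, q, hq, htz, hzq⟩ := mem_cone hxi hz1
      obtain ⟨t', ht', q', hq', htz', hzq'⟩ := mem_cone hxj hz2
      have key : ∀ (a b : Fin (n + 1)) (t t' : ℝ) (q : Fin n → ℝ), a ≠ b →
          q ∈ orth (fun k => s (a.succAbove k)) → 0 ≤ 1 - t → x b ≠ 0 →
          z = (1 - t) • a.insertNth (α := fun _ => ℝ) 0 q + t • x → t' = z b / x b → t ≤ t' := by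
        intro a b t t' q hab hq h1 hb hzq hb'
        obtain ⟨k, rfl⟩ := Fin.exists_succAbove_eq hab.symm
        have h2 := mul_nonneg h1 (hq k)
        have h3 : 0 < sg (s (a.succAbove k)) * x (a.succAbove k) :=
          lt_of_le_of_ne (hx.2 _) (Ne.symm (mul_ne_zero (by
            rcases sg_eq_or (s (a.succAbove k)) with h | h <;> simp [h]) hb))
        have h4 : z (a.succAbove k) = t' * x (a.succAbove k) := by rw [hb']; field_simp
        rw [congrFun hzq] at h4
        simp at h4
        nlinarith [h4, congrArg (fun u => sg (s (a.succAbove k)) * u) h4]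
      have e1 := key i j t t' q hij hq.2 (by linarith [ht.2]) hxj hzq htz'
      have e2 := key j i t' t q' hij.symm hq'.2 (by linarith [ht'.2]) hxi hzq' htz
      have e : z i / x i = z j / x j := by rw [← htz, ← htz']; linarith
      show (x j • LinearMap.proj i - x i • LinearMap.proj j : _ →ₗ[ℝ] ℝ) z = 0
      simp
      field_simp at e
      linarith
    · intro h
      have := LinearMap.congr_fun h (Pi.single i 1)
      simp [Pi.single_eq_of_ne hij.symm] at this
      exact hxj this
  have hle := measure_mono (μ := volume) (iUnion₂_subset hsub)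
  rw [measure_biUnion_finset₀ hd fun i _ => (measurableSet_cone i x (hQ i)).nullMeasurableSet] at hle
  have hfin : volume (K ∩ orth s) ≠ ⊤ :=
    ne_top_of_le_ne_top hK.measure_ne_top (measure_mono inter_subset_left)
  have hr := ENNReal.toReal_mono hfin hle
  rw [ENNReal.toReal_sum fun i hi => ne_top_of_le_ne_top hfin (measure_mono (hsub i hi))] at hr
  refine le_of_eq_of_le ?_ hr
  rw [Finset.sum_filter]
  refine Finset.sum_congr rfl fun i _ => ?_
  by_cases hi : x i = 0
  · simp [hi]
  · rw [if_pos hi, vol_cone i x hi (hQ i), ENNReal.toReal_mul,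
      ENNReal.toReal_ofReal (by positivity)]
    rfl

/-- Adding a segment. -/
lemma vol_add_segment (i : Fin (n + 1)) {S T : Set (Fin (n + 1) → ℝ)} (hS : IsCompact S)
    (hT : IsCompact T) {l : ℝ} (hl : 0 ≤ l)
    (hsub : ∀ z ∈ S, ∀ u ∈ Icc (-l) l, z + Pi.single i u ∈ T) :
    volume.real S + 2 * l * volume.real (i.removeNth '' S) ≤ volume.real T := by
  have hP : IsCompact (i.removeNth '' S) := hS.image (by unfold Fin.removeNth; fun_prop)
  have hcS : ∀ q, IsCompact {u : ℝ | i.insertNth u q ∈ S} := by
    intro q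
    refine ((hS.image (continuous_apply i)).of_isClosed_subset (hS.isClosed.preimage ?_) ?_)
    · exact continuous_pi fun j => by
        rcases i.eq_self_or_eq_succAbove j with rfl | ⟨k, rfl⟩
        · simpa using continuous_id'
        · simpa using continuous_const
    · intro u hu; exact ⟨_, hu, by simp⟩
  have key : ∀ q, volume {u | i.insertNth u q ∈ S} +
      (i.removeNth '' S).indicator (fun _ => ENNReal.ofReal (2 * l)) q ≤
      volume {u | i.insertNth u q ∈ T} := by
    intro q
    have hmove : ∀ u v, i.insertNth u q ∈ S → v ∈ Icc (-l) l → i.insertNth (u + v) q ∈ T := by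
      intro u v hu hv
      convert hsub _ hu v hv using 1
      funext j
      rcases i.eq_self_or_eq_succAbove j with rfl | ⟨k, rfl⟩ <;> simp
    by_cases hq : q ∈ i.removeNth '' S
    · obtain ⟨z, hz, rfl⟩ := hq
      rw [Set.indicator_of_mem (show i.removeNth z ∈ i.removeNth '' S from ⟨z, hz, rfl⟩)]
      set A := {u : ℝ | i.insertNth u (i.removeNth z) ∈ S} with hAdef
      have hne : A.Nonempty := ⟨z i, by simp [hAdef, hz]⟩
      have ha := (hcS _).sInf_mem hne
      have hb := (hcS _).sSup_mem hne
      set a := sInf A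
      set b := sSup A
      have hbds : A ⊆ Icc a b := fun u hu =>
        ⟨csInf_le (hcS _).bddBelow hu, le_csSup (hcS _).bddAbove hu⟩
      have hab : a ≤ b := (hbds ha).2
      have hU : A ∪ (Ico (a - l) a ∪ Ioc b (b + l)) ⊆ {u | i.insertNth u (i.removeNth z) ∈ T} := by
        rintro u (hu | hu | hu)
        · simpa using hmove u 0 hu ⟨by linarith, hl⟩
        · simpa using hmove a (u - a) ha ⟨by linarith [hu.1], by linarith [hu.2]⟩
        · simpa using hmove b (u - b) hb ⟨by linarith [hu.1], by linarith [hu.2]⟩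
      refine le_of_eq_of_le ?_ (measure_mono hU)
      rw [measure_union _ (measurableSet_Ico.union measurableSet_Ioc),
        measure_union _ measurableSet_Ioc, Real.volume_Ico, Real.volume_Ioc,
        ← ENNReal.ofReal_add (by linarith) (by linarith)]
      · ring_nf
      · exact Set.disjoint_left.mpr fun u h1 h2 => by linarith [h1.2, h2.1]
      · refine Set.disjoint_left.mpr fun u h1 h2 => ?_
        rcases h2 with h2 | h2
        · linarith [(hbds h1).1, h2.2]
        · linarith [(hbds h1).2, h2.1]
    · rw [Set.indicator_of_notMem hq, add_zero]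
      exact measure_mono fun u hu => by simpa using hmove u 0 hu ⟨by linarith, hl⟩
  have h := lintegral_mono (μ := (volume : Measure (Fin n → ℝ))) key
  rw [lintegral_add_right _ (measurable_const.indicator hP.measurableSet),
    ← vol_slice' i hS.measurableSet, ← vol_slice' i hT.measurableSet,
    lintegral_indicator_const hP.measurableSet] at h
  have h2 := ENNReal.toReal_mono hT.measure_ne_top h
  rw [ENNReal.toReal_add hS.measure_ne_top (ENNReal.mul_ne_top ENNReal.ofReal_ne_top
    hP.measure_ne_top), ENNReal.toReal_mul, ENNReal.toReal_ofReal (by positivity)] at h2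
  simp only [measureReal_def]
  linarith

/-- A body containing a box is large. -/
lemma box_le {L : Set (Fin (n + 1) → ℝ)} (hL : IsCompact L) (hc : Convex ℝ L)
    (y : Fin (n + 1) → ℝ) (hy : ∀ i, 0 ≤ y i) (hbox : ∀ b, (∀ i, |b i| ≤ y i) → b ∈ L) :
    ∑ i, 2 * y i * volume.real (i.removeNth '' L) ≤ (n + 1) * volume.real L := by
  classical
  set W := ∑ i, 2 * y i * volume.real (i.removeNth '' L)
  have main : ∀ t : ℝ, 0 < t → volume.real L + t * W ≤ (1 + t) ^ (n + 1) * volume.real L := by
    intro t ht
    let B : Finset (Fin (n + 1)) → Set (Fin (n + 1) → ℝ) := fun J =>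
      Set.univ.pi fun j => if j ∈ J then Icc (-(t * y j)) (t * y j) else {0}
    have hB : ∀ J, IsCompact (B J) := fun J => isCompact_univ_pi fun j => by
      split_ifs
      · exact isCompact_Icc
      · exact isCompact_singleton
    have hB0 : ∀ J, (0 : Fin (n + 1) → ℝ) ∈ B J := fun J j _ => by
      show (0 : ℝ) ∈ if j ∈ J then Icc (-(t * y j)) (t * y j) else {0}
      split_ifs
      · exact ⟨neg_nonpos.mpr (mul_nonneg ht.le (hy j)), mul_nonneg ht.le (hy j)⟩
      · rfl
    have step : ∀ J, volume.real L + t * ∑ i ∈ J, 2 * y i * volume.real (i.removeNth '' L) ≤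
        volume.real (L + B J) := by
      intro J
      induction J using Finset.induction with
      | empty =>
        simp only [Finset.sum_empty, mul_zero, add_zero]
        exact measureReal_mono (Set.subset_add_left L (hB0 _)) (hL.add (hB _)).measure_ne_top
      | @insert i J hi ih =>
        rw [Finset.sum_insert hi, mul_add]
        have h1 := vol_add_segment i (hL.add (hB J)) (hL.add (hB (insert i J)))
          (mul_nonneg ht.le (hy i)) (by
            rintro z ⟨a, ha, b, hb, rfl⟩ u hu
            refine ⟨a, ha, b + Pi.single i u, fun j _ => ?_, (add_assoc _ _ _).symm⟩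
            have := hb j trivial
            by_cases hj : j = i
            · subst hj; simp [hi] at this; simp [this]; exact hu
            · simpa [hj, Pi.single_eq_of_ne hj] using this)
        have hrm : Continuous fun z : Fin (n + 1) → ℝ => i.removeNth z := by
          unfold Fin.removeNth; fun_prop
        have h2 : volume.real (i.removeNth '' L) ≤ volume.real (i.removeNth '' (L + B J)) :=
          measureReal_mono (Set.image_mono (Set.subset_add_left L (hB0 J)))
            ((hL.add (hB J)).image hrm).measure_ne_top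
        nlinarith [mul_le_mul_of_nonneg_left h2 (mul_nonneg ht.le (hy i))]
    refine (step Finset.univ).trans ?_
    have hsub : L + B Finset.univ ⊆ (1 + t) • L := by
      rintro _ ⟨a, ha, b, hb, rfl⟩
      rw [hc.add_smul zero_le_one ht.le, one_smul]
      refine ⟨a, ha, b, ⟨t⁻¹ • b, hbox _ fun j => ?_, smul_inv_smul₀ ht.ne' b⟩, rfl⟩
      have := hb j trivial
      simp only [Finset.mem_univ, if_true, mem_Icc] at this
      rw [Pi.smul_apply, smul_eq_mul, inv_mul_eq_div, abs_div, abs_of_pos ht,
        div_le_iff₀ ht, abs_le]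
      constructor <;> linarith
    refine (measureReal_mono hsub (hL.smul _).measure_ne_top).trans (le_of_eq ?_)
    rw [measureReal_def, Measure.addHaar_smul_of_nonneg _ (by linarith : (0:ℝ) ≤ 1 + t),
      ENNReal.toReal_mul, ENNReal.toReal_ofReal (by positivity), finrank_fin_fun]
    rfl
  by_contra hlt
  push Not at hlt
  have hd : HasDerivAt (fun t : ℝ => (1 + t) ^ (n + 1) * volume.real L - volume.real L - t * W)
      (((n : ℝ) + 1) * volume.real L - W) 0 := by
    have h1 := ((hasDerivAt_id (0 : ℝ)).const_add 1).pow (n + 1)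
    have h2 := ((h1.mul_const (volume.real L)).sub_const (volume.real L)).sub
      ((hasDerivAt_id (0 : ℝ)).mul_const W)
    simpa [Pi.sub_def] using h2
  have hs := hasDerivWithinAt_iff_tendsto_slope.mp (hd.hasDerivWithinAt (s := Ioi 0))
  rw [Set.sdiff_singleton_eq_self (by simp : (0 : ℝ) ∉ Ioi (0 : ℝ))] at hs
  have : (0 : ℝ) ≤ ((n : ℝ) + 1) * volume.real L - W := by
    refine ge_of_tendsto hs (eventually_nhdsWithin_of_forall fun t ht => ?_)
    have := main t ht
    rw [slope_def_field]
    simp only [add_zero, one_pow, zero_mul, sub_zero, one_mul, sub_self]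
    exact div_nonneg (by linarith) (le_of_lt ht)
  linarith

lemma Body.symm_mem {K : Set (Fin n → ℝ)} (hK : Body K) : ∃ r > 0, Metric.closedBall 0 r ⊆ K := by
  obtain ⟨r, hr, hb⟩ := Metric.mem_nhds_iff.mp (mem_interior_iff_mem_nhds.mp hK.zero)
  exact ⟨r / 2, by positivity, (Metric.closedBall_subset_ball (by linarith)).trans hb⟩

lemma Body.vol_pos {K : Set (Fin n → ℝ)} (hK : Body K) : 0 < volume.real K :=
  ENNReal.toReal_pos (Measure.measure_pos_of_nonempty_interior volume ⟨0, hK.zero⟩).ne'
    hK.cpt.measure_ne_top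

lemma Body.pol_cpt {K : Set (Fin n → ℝ)} (hK : Body K) : IsCompact (pol K) := by
  obtain ⟨r, hr, hb⟩ := hK.symm_mem
  refine (isCompact_closedBall 0 (1 / r)).of_isClosed_subset ?_ fun y hy => ?_
  · have : pol K = ⋂ x ∈ K, {y | x ⬝ᵥ y ≤ 1} := by ext y; simp [pol]
    rw [this]
    refine isClosed_biInter fun x _ => isClosed_le ?_ continuous_const
    exact continuous_finsetSum _ fun i _ => continuous_const.mul (continuous_apply i)
  · rw [mem_closedBall_zero_iff, pi_norm_le_iff_of_nonneg (by positivity)]
    intro i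
    have h1 : ∀ v : ℝ, |v| ≤ r → v * y i ≤ 1 := by
      intro v hv
      have := hy (Pi.single i v) (hb (by
        rw [mem_closedBall_zero_iff, Pi.norm_single]; exact hv))
      simpa using this
    rw [Real.norm_eq_abs, le_div_iff₀ hr]
    rcases le_total 0 (y i) with h | h
    · rw [abs_of_nonneg h]; linarith [h1 r (by rw [abs_of_pos hr])]
    · rw [abs_of_nonpos h]; linarith [h1 (-r) (by rw [abs_neg, abs_of_pos hr])]

lemma pol_cvx (K : Set (Fin n → ℝ)) : Convex ℝ (pol K) := by
  intro a ha b hb p q hp hq hpq x hx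
  have := ha x hx; have := hb x hx
  simp only [dotProduct_add, dotProduct_smul, smul_eq_mul]
  nlinarith

lemma Body.sec {K : Set (Fin (n + 1) → ℝ)} (hK : Body K) (i : Fin (n + 1)) : Body (sec i K) := by
  have hc := continuous_insertNth i 0
  refine ⟨?_, ?_, ?_⟩
  · refine (hK.cpt.image (f := fun z => i.removeNth z) (by unfold Fin.removeNth; fun_prop)).of_isClosed_subset
      (hK.cpt.isClosed.preimage hc) fun q hq => ⟨_, hq, by simp⟩
  · intro a ha b hb p q hp hq hpq
    show i.insertNth 0 _ ∈ K
    convert hK.cvx ha hb hp hq hpq using 1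
    funext j
    rcases i.eq_self_or_eq_succAbove j with rfl | ⟨k, rfl⟩ <;> simp
  · have : i.insertNth (α := fun _ => ℝ) 0 (0 : Fin n → ℝ) = 0 := by
      funext j
      rcases i.eq_self_or_eq_succAbove j with rfl | ⟨k, rfl⟩ <;> simp
    refine preimage_interior_subset_interior_preimage hc ?_
    show i.insertNth 0 0 ∈ interior K
    rw [this]; exact hK.zero

/-- The polar of a section is covered by the projection of the polar. -/
lemma pol_sec_subset {K : Set (Fin (n + 1) → ℝ)} (hK : Body K) (i : Fin (n + 1)) :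
    pol (sec i K) ⊆ i.removeNth '' pol K := by
  intro w hw
  have dot : ∀ (x : Fin (n + 1) → ℝ) c, x ⬝ᵥ i.insertNth c w = x i * c + i.removeNth x ⬝ᵥ w := by
    intro x c
    simp [dotProduct, Fin.sum_univ_succAbove _ i, Fin.removeNth]
  set A := (fun x => (1 - i.removeNth x ⬝ᵥ w) / x i) '' {x ∈ K | x i < 0}
  have hcross : ∀ x ∈ K, ∀ x' ∈ K, 0 < x i → x' i < 0 →
      (1 - i.removeNth x' ⬝ᵥ w) / x' i ≤ (1 - i.removeNth x ⬝ᵥ w) / x i := by
    intro x hx x' hx' h h'
    have hd : 0 < x i - x' i := by linarith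
    have hm : i.removeNth ((-x' i / (x i - x' i)) • x + (x i / (x i - x' i)) • x') ∈ sec i K := by
      show i.insertNth 0 _ ∈ K
      have ha : 0 ≤ -x' i / (x i - x' i) := div_nonneg (by linarith) hd.le
      have hb : 0 ≤ x i / (x i - x' i) := div_nonneg h.le hd.le
      have hab : -x' i / (x i - x' i) + x i / (x i - x' i) = 1 := by field_simp; ring
      convert hK.cvx hx hx' ha hb hab using 1
      funext j
      rcases i.eq_self_or_eq_succAbove j with rfl | ⟨k, rfl⟩
      · simp; field_simp; ring
      · simp [Fin.removeNth]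
    have := hw _ hm
    have e : i.removeNth ((-x' i / (x i - x' i)) • x + (x i / (x i - x' i)) • x') =
        (-x' i / (x i - x' i)) • i.removeNth x + (x i / (x i - x' i)) • i.removeNth x' := rfl
    rw [e, add_dotProduct, smul_dotProduct, smul_dotProduct, smul_eq_mul, smul_eq_mul] at this
    field_simp at this
    rw [div_le_iff_of_neg h', div_mul_eq_mul_div, div_le_iff₀ h]
    nlinarith
  obtain ⟨r, hr, hb⟩ := hK.symm_mem
  have hmem : ∀ v : ℝ, |v| ≤ r → Pi.single i v ∈ K := fun v hv => hb (by
    rw [mem_closedBall_zero_iff, Pi.norm_single]; exact hv)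
  have hne : A.Nonempty := ⟨_, Pi.single i (-r), ⟨hmem _ (by simp [abs_of_pos hr]), by simpa⟩, rfl⟩
  have hbdd : BddAbove A := ⟨_, by
    rintro _ ⟨x', ⟨hx', h'⟩, rfl⟩
    exact hcross (Pi.single i r) (hmem r (by simp [abs_of_pos hr])) x' hx' (by simpa) h'⟩
  refine ⟨i.insertNth (sSup A) w, fun x hx => ?_, by simp⟩
  rw [dot]
  rcases lt_trichotomy (x i) 0 with h | h | h
  · have := le_csSup hbdd ⟨x, ⟨hx, h⟩, rfl⟩
    rw [div_le_iff_of_neg h] at this
    nlinarith
  · have : i.removeNth x ∈ sec i K := by
      show i.insertNth 0 _ ∈ K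
      rw [← h]; simpa using hx
    have := hw _ this
    rw [h]; linarith
  · have : sSup A ≤ (1 - i.removeNth x ⬝ᵥ w) / x i := csSup_le hne (by
      rintro _ ⟨x', ⟨hx', h'⟩, rfl⟩
      exact hcross x hx x' hx' h h')
    rw [le_div_iff₀ h] at this
    nlinarith

/-- The volume product of an equally cut body against those of its sections. -/
theorem step {K : Set (Fin (n + 1) → ℝ)} (hK : Body K) (he : Equi K)
    (hs : ∀ i, Equi (sec i K)) :
    4 * ∑ i, vp (sec i K) ≤ ((n : ℝ) + 1) ^ 2 * vp K := by
  set V := volume.real K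
  have hV : 0 < V := hK.vol_pos
  set y : Fin (n + 1) → ℝ := fun i => 2 * volume.real (sec i K) / ((n + 1) * V)
  have hy : ∀ i, 0 ≤ y i := fun i => by positivity
  have hbox : ∀ b, (∀ i, |b i| ≤ y i) → b ∈ pol K := by
    intro b hb x hx
    obtain ⟨s, hxs⟩ := exists_mem_orth x
    have h1 := cone_sum_le hK.cpt hK.cvx s ⟨hx, hxs⟩
    rw [he s, Finset.sum_congr rfl fun i _ => by rw [hs i]] at h1
    calc x ⬝ᵥ b ≤ ∑ i, |x i| * y i := Finset.sum_le_sum fun i _ =>
          (le_abs_self _).trans (by rw [abs_mul]; exact mul_le_mul_of_nonneg_left (hb i) (abs_nonneg _))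
      _ = (2 ^ (n + 1) / V) * ∑ i, |x i| / (n + 1) * (volume.real (sec i K) / 2 ^ n) := by
          rw [Finset.mul_sum]
          refine Finset.sum_congr rfl fun i _ => ?_
          simp only [y]; field_simp; ring
      _ ≤ (2 ^ (n + 1) / V) * (V / 2 ^ (n + 1)) :=
          mul_le_mul_of_nonneg_left h1 (by positivity)
      _ = 1 := by field_simp
  have h2 := box_le hK.pol_cpt (pol_cvx K) y hy hbox
  have h3 : ∑ i, 2 * y i * volume.real (pol (sec i K)) ≤ (n + 1) * volume.real (pol K) :=
    le_trans (Finset.sum_le_sum fun i _ => mul_le_mul_of_nonneg_left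
      (measureReal_mono (pol_sec_subset hK i) (hK.pol_cpt.image
        (f := fun z => i.removeNth z) (by unfold Fin.removeNth; fun_prop)).measure_ne_top)
      (by have := hy i; positivity)) h2
  have h4 : ∑ i, 2 * y i * volume.real (pol (sec i K)) =
      4 / (((n : ℝ) + 1) * V) * ∑ i, vp (sec i K) := by
    rw [Finset.mul_sum]
    refine Finset.sum_congr rfl fun i _ => ?_
    simp only [y, vp]; field_simp; ring
  rw [h4, div_mul_eq_mul_div, div_le_iff₀ (by positivity)] at h3
  simp only [vp] at h3 ⊢
  nlinarith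

end Vale.Agent.P248
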